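import Vale.Agent.P304.Cells

/-! Fractional allocation from lazily tracked posterior tails. -/

namespace Vale.Agent.P304

open Finset Real

universe u

/-- number of copies owning a given server slot -/
noncomputable def bv (m : ℕ) (θ η y : ℝ) : ℕ := ⌈m * cl (1 - θ * (y - 2 * η))⌉₊

lemma cl_mem (x : ℝ) : 0 ≤ cl x ∧ cl x ≤ 1 := ⟨le_max_left _ _, max_le zero_le_one (min_le_right _ _)⟩

lemma bv_le (m : ℕ) (θ η y : ℝ) : bv m θ η y ≤ m :=
  Nat.ceil_le.2 (mul_le_of_le_one_right m.cast_nonneg (cl_mem _).2)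

lemma bv_lip (m : ℕ) {θ : ℝ} (hθ : 0 ≤ θ) (η y y' : ℝ) :
    |(bv m θ η y : ℝ) - bv m θ η y'| ≤ m * θ * |y - y'| + 1 := by
  have key : ∀ y y', (bv m θ η y : ℝ) - bv m θ η y' ≤ m * θ * |y - y'| + 1 := by
    intro y y'
    have h1 := Nat.ceil_lt_add_one (mul_nonneg m.cast_nonneg (cl_mem (1 - θ * (y - 2 * η))).1)
    have h2 := Nat.le_ceil (m * cl (1 - θ * (y' - 2 * η)))
    have h3 : cl (1 - θ * (y - 2 * η)) - cl (1 - θ * (y' - 2 * η)) ≤ θ * |y - y'| := by
      have := mul_le_mul_of_nonneg_left (neg_abs_le (y - y')) hθ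
      have := mul_nonneg hθ (abs_nonneg (y - y'))
      unfold cl
      simp only [max_def, min_def]
      split_ifs <;> linarith
    have := mul_le_mul_of_nonneg_left h3 m.cast_nonneg
    unfold bv
    linarith
  exact abs_sub_le_iff.2 ⟨key y y', abs_sub_comm y y' ▸ key y' y⟩

lemma bv_spec (m : ℕ) {θ η δ y Z : ℝ} (hθ : 6 ≤ θ) (hη : 0 < η) (hθη : 3 * θ * η ≤ 1)
    (hδ : 0 < δ) (hδ1 : δ ≤ 1 / 4) (hy : 0 ≤ y) (hZ : 0 ≤ Z) (h : |Z - y| ≤ δ * (y + η)) :
    m * (1 - θ / (1 - δ) * Z) ≤ bv m θ η y ∧ (Z ≤ η / 2 → m ≤ bv m θ η y) ∧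
      (0 < bv m θ η y → (bv m θ η y : ℝ) ≤ m * (1 - θ / (1 + δ) * Z + 3 * θ * η) + 1 ∧
        Z ≤ 1 / 2) := by
  obtain ⟨h1, h2⟩ := abs_le.1 h
  have hm : (0 : ℝ) ≤ m := m.cast_nonneg
  have a1 : θ / (1 - δ) * (1 - δ) = θ := div_mul_cancel₀ _ (by linarith)
  have a2 : θ / (1 + δ) * (1 + δ) = θ := div_mul_cancel₀ _ (by linarith)
  have a3 : 0 ≤ θ / (1 - δ) := div_nonneg (by linarith) (by linarith)
  have a4 : 0 ≤ θ / (1 + δ) := div_nonneg (by linarith) (by linarith)
  refine ⟨le_trans (mul_le_mul_of_nonneg_left (le_max_of_le_right (le_min ?_ ?_)) hm)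
    (Nat.le_ceil _), fun h3 => ?_, fun h3 => ?_⟩
  · have : (1 - δ) * (y - 2 * η) ≤ Z := by nlinarith
    nlinarith [mul_le_mul_of_nonneg_left this a3]
  · nlinarith [mul_nonneg a3 hZ]
  · have : (1 - δ) * (y - 2 * η) ≤ 0 := by nlinarith
    have h4 : y - 2 * η ≤ 0 := by nlinarith
    have h5 : cl (1 - θ * (y - 2 * η)) = 1 := by
      rw [cl, min_eq_right (by nlinarith), max_eq_right zero_le_one]
    simp [bv, h5]
  · have h4 : 0 < cl (1 - θ * (y - 2 * η)) := (pos_iff_pos_of_mul_pos (Nat.ceil_pos.1 h3)).1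
      (lt_of_le_of_ne hm fun h0 => by simp [bv, ← h0] at h3)
    have h5 : 0 < 1 - θ * (y - 2 * η) := ((lt_max_iff.1 h4).resolve_left (lt_irrefl _)).trans_le
      (min_le_left _ _)
    have h6 : cl (1 - θ * (y - 2 * η)) ≤ 1 - θ * (y - 2 * η) := max_le h5.le (min_le_left _ _)
    have h7 : Z ≤ (1 + δ) * (y + η) := by nlinarith
    refine ⟨(Nat.ceil_lt_add_one (mul_nonneg hm h4.le)).le.trans (add_le_add
      (mul_le_mul_of_nonneg_left (h6.trans ?_) hm) le_rfl), ?_⟩
    · nlinarith [mul_le_mul_of_nonneg_left h7 a4]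
    · have h8 : 6 * (y - 2 * η) ≤ 1 := by
        by_contra h8
        nlinarith
      have h9 : 18 * η ≤ 1 := by nlinarith
      nlinarith

namespace Scen

variable {X : Type u} [MetricSpace X] {k : ℕ} (S : Scen X k) {G G' : Type u} [DecidableEq G]
  [DecidableEq G']

/-- indicator that at most `i` offline servers carry the label `g` -/
noncomputable def few (lab : List X → X → Option G) (g : G) (i : ℕ) (h : List X) (ω : S.Ω) : ℝ :=
  if cnt (S.lb lab h ω) g ≤ i then 1 else 0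

/-- lower bounds satisfied by an allocation -/
def Lo (lab : List X → X → Option G) (m : ℕ) (Θ ζ : ℝ) (h : List X) (g : G) (A : ℝ) : Prop :=
  ∀ N : ℕ, m * (N - Θ * ∑ i ∈ range N, S.post h (S.few lab g i h)) ≤ A ∧
    (∑ i ∈ range N, S.post h (S.few lab g i h) ≤ ζ → m * N ≤ A)

variable {S}

lemma sum_few (n N : ℕ) : ∑ i ∈ range N, (if n ≤ i then 1 else 0 : ℝ) = max 0 ((N : ℝ) - n) := by
  induction N with
  | zero => simp
  | succ N ih =>
    rw [sum_range_succ, ih]
    split_ifs with h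
    · have : (n : ℝ) ≤ N := by exact_mod_cast h
      rw [max_eq_right (by linarith), max_eq_right (by push_cast; linarith)]; push_cast; ring
    · have : ((N + 1 : ℕ) : ℝ) ≤ n := by exact_mod_cast not_le.1 h
      rw [max_eq_left (by push_cast at this; linarith), max_eq_left (by linarith)]; ring

lemma few_lip (n n' N : ℕ) : ∑ i ∈ range N,
    |(if n' ≤ i then 1 else 0 : ℝ) - if n ≤ i then 1 else 0| ≤ |(n' : ℝ) - n| := by
  wlog h : n ≤ n' generalizing n n'
  · simpa only [abs_sub_comm] using this n' n (not_le.1 h).le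
  rw [sum_congr rfl (g := fun i => (if n ≤ i then 1 else 0 : ℝ) - if n' ≤ i then 1 else 0)
    fun i _ => by split_ifs <;> first | omega | simp, sum_sub_distrib, sum_few, sum_few]
  have := le_abs_self ((n' : ℝ) - n)
  have : (n : ℝ) ≤ n' := by exact_mod_cast h
  simp only [max_def]
  split_ifs <;> linarith

lemma cnt_le {C : Type*} [DecidableEq C] (f : Fin k → Option C) (c : C) : cnt f c ≤ k :=
  (card_le_univ _).trans (by simp)

omit [MetricSpace X] in
lemma few_mem (lab : List X → X → Option G) (c : G) (i : ℕ) (h : List X) (ω : S.Ω) :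
    S.few lab c i h ω ∈ Set.Icc (0 : ℝ) 1 := by unfold few; split_ifs <;> simp

omit [MetricSpace X] in
lemma post_few (lab : List X → X → Option G) (c : G) (i : ℕ) {h : List X} (H : S.Re h) :
    S.post h (S.few lab c i h) ∈ Set.Icc (0 : ℝ) 1 :=
  ⟨(post_const H 0).symm.trans_le (post_mono H fun ω _ => (few_mem lab c i h ω).1),
    (post_mono H fun ω _ => (few_mem lab c i h ω).2).trans (post_const H 1).le⟩

omit [MetricSpace X] in
lemma sum_post_few (lab : List X → X → Option G) (c : G) {h : List X} (H : S.Re h) :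
    ∑ i ∈ range k, (1 - S.post h (S.few lab c i h)) = S.post h fun ω => cnt (S.lb lab h ω) c := by
  rw [sum_sub_distrib, sub_eq_iff_eq_add, ← post_sum, ← post_add, ← post_const H (∑ _ ∈ range k, 1)]
  refine congrArg _ (funext fun ω => ?_)
  have : (cnt (S.lb lab h ω) c : ℝ) ≤ k := by exact_mod_cast cnt_le _ _
  simp only [few, sum_few]
  rw [max_eq_right (by linarith)]; simp

omit [MetricSpace X] in
lemma superadd [Fintype G'] (lab : List X → X → Option G) (lab' : List X → X → Option G')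
    (par : G' → G) (hp : ∀ h x c, lab' h x = some c → lab h x = some (par c)) (m : ℕ)
    {θ κ Θ ζ : ℝ} (hκ : 0 ≤ κ) (hΘ : 0 ≤ Θ) (H1 : 2 * k * (m * κ + 1) ≤ m * ((θ - Θ) * ζ))
    (H' : Θ ≤ θ) {h : List X} (H : S.Re h) (b : G' → ℕ → ℕ) (b1 : ∀ c i, b c i ≤ m)
    (hb : ∀ c i, 0 < b c i → (b c i : ℝ) ≤ m * (1 - θ * S.post h (S.few lab' c i h) + κ) + 1 ∧
      S.post h (S.few lab' c i h) ≤ 1 / 2) (g : G) (e : ℕ) (B : ℝ) (hB : S.Lo lab m Θ ζ h g B)
    (he : ∀ ω, S.hist ω h.length = h → e ≤ (univ.filter fun i =>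
      S.lb lab h ω i = some g ∧ S.lb lab' h ω i = none).card) :
    m * e + ∑ c, (if par c = g then ((∑ i ∈ range k, b c i : ℕ) : ℝ) else 0) ≤ B := by
  obtain ⟨α, hα⟩ : ∃ α : G' → ℕ → ℕ, ∀ c i, α c i = if par c = g ∧ 0 < b c i then 1 else 0 :=
    ⟨_, fun _ _ => rfl⟩
  have hm0 : (0 : ℝ) ≤ m := m.cast_nonneg
  obtain ⟨N, hN⟩ : ∃ N, N = ∑ c, ∑ i ∈ range k, α c i := ⟨_, rfl⟩
  obtain ⟨Y, hY⟩ : ∃ Y, Y = ∑ c, ∑ i ∈ range k, α c i * S.post h (S.few lab' c i h) := ⟨_, rfl⟩
  have sp := fun ω => cnt_split par (S.lb lab h ω) (S.lb lab' h ω) (fun i c => hp h _ c) g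
  have a1 : (N : ℝ) ≤ 2 * k := by
    have : S.post h (fun ω => ∑ c, (if par c = g then 1 else 0) * (cnt (S.lb lab' h ω) c : ℝ)) ≤
        S.post h fun _ => k := post_mono H fun ω _ => by
      have := (Nat.le.intro (sp ω).symm).trans (cnt_le _ _)
      simp only [ite_mul, one_mul, zero_mul]
      exact_mod_cast this
    rw [post_const H, post_sum] at this
    simp only [post_mul, ← sum_post_few _ _ H] at this
    refine le_trans ?_ (mul_le_mul_of_nonneg_left this zero_le_two)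
    simp only [hN, mul_sum, Nat.cast_sum]
    refine sum_le_sum fun c _ => sum_le_sum fun i _ => ?_
    have := (post_few lab' c i H).2
    rw [hα]
    split_ifs with h1 h2 h2
    · push_cast; linarith [(hb c i h1.2).2]
    · exact absurd h1.1 h2
    · push_cast; linarith
    · simp
  have a2 : ∑ i ∈ range (N + e), S.post h (S.few lab g i h) ≤ Y := by
    simp only [hY, ← post_mul, ← post_sum]
    refine post_mono H fun ω hω => ?_
    simp only [few, sum_few]
    refine max_le (by positivity) ?_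
    have h1 : ∀ c, ∑ i ∈ range k, (α c i : ℝ) ≤ ∑ i ∈ range k, (α c i : ℝ) *
        (if cnt (S.lb lab' h ω) c ≤ i then 1 else 0) +
        if par c = g then (cnt (S.lb lab' h ω) c : ℝ) else 0 := by
      intro c
      by_cases h1 : par c = g
      · have h2 := sum_few (cnt (S.lb lab' h ω) c) k
        have h3 : ∑ i ∈ range k, (α c i : ℝ) ≤ ∑ i ∈ range k, ((α c i : ℝ) *
            (if cnt (S.lb lab' h ω) c ≤ i then 1 else 0) +
            (1 - if cnt (S.lb lab' h ω) c ≤ i then 1 else 0)) := sum_le_sum fun i _ => by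
          rw [hα]; split_ifs <;> simp
        rw [sum_add_distrib, sum_sub_distrib, h2] at h3
        have := le_max_right 0 ((k : ℝ) - cnt (S.lb lab' h ω) c)
        rw [sum_const, card_range, nsmul_eq_mul, mul_one] at h3
        rw [if_pos h1]
        linarith
      · simp [hα, h1]
    have h2 := sum_le_sum fun c (_ : c ∈ univ) => h1 c
    have h3 : (e : ℝ) + ∑ c, (if par c = g then (cnt (S.lb lab' h ω) c : ℝ) else 0) ≤
        cnt (S.lb lab h ω) g := by
      have := sp ω
      have := he ω hω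
      exact_mod_cast (by omega : e + ∑ c, (if par c = g then cnt (S.lb lab' h ω) c else 0) ≤
        cnt (S.lb lab h ω) g)
    rw [sum_add_distrib] at h2
    simp only [hN, Nat.cast_add, Nat.cast_sum]
    linarith
  have a3 : ∑ c, (if par c = g then ((∑ i ∈ range k, b c i : ℕ) : ℝ) else 0) =
      ∑ c, ∑ i ∈ range k, (α c i : ℝ) * b c i := by
    refine sum_congr rfl fun c _ => ?_
    by_cases h1 : par c = g
    · simp only [h1, hα, if_true, true_and, Nat.cast_sum]
      refine sum_congr rfl fun i _ => ?_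
      split_ifs with h2
      · simp
      · rw [show b c i = 0 by omega]; simp
    · simp [hα, h1]
  have a4 : ∑ c, ∑ i ∈ range k, (α c i : ℝ) * b c i ≤ m * N := by
    simp only [hN, mul_sum, Nat.cast_sum]
    refine sum_le_sum fun c _ => sum_le_sum fun i _ => ?_
    rw [mul_comm]
    exact mul_le_mul_of_nonneg_right (by exact_mod_cast b1 c i) (Nat.cast_nonneg _)
  have a5 : ∑ c, ∑ i ∈ range k, (α c i : ℝ) * b c i ≤ m * N - m * θ * Y + N * (m * κ + 1) := by
    simp only [hN, hY, mul_sum, sum_mul, Nat.cast_sum, ← sum_sub_distrib, ← sum_add_distrib]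
    refine sum_le_sum fun c _ => sum_le_sum fun i _ => ?_
    rw [hα]
    split_ifs with h1
    · have := (hb c i h1.2).1
      push_cast
      linarith
    · simp
  rw [a3]
  obtain ⟨b1, b2⟩ := hB (N + e)
  push_cast at b1 b2
  by_cases h1 : Y ≤ ζ
  · linarith [b2 (a2.trans h1)]
  · have h2 := mul_le_mul_of_nonneg_left (mul_le_mul_of_nonneg_left a2 hΘ) hm0
    have h3 := mul_le_mul_of_nonneg_right a1 (show 0 ≤ m * κ + 1 by positivity)
    have h4 := mul_le_mul_of_nonneg_left (mul_le_mul_of_nonneg_left (not_le.1 h1).le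
      (sub_nonneg.2 H')) hm0
    linarith

omit [MetricSpace X] in
theorem targets [Fintype G'] (lab : List X → X → Option G) (lab' : List X → X → Option G')
    (par : G' → G) (hp : ∀ h x c, lab' h x = some c → lab h x = some (par c))
    (h0 : lab' [] S.x0 = none) (w : G' → ℝ) (hw : ∀ c, 0 ≤ w c) (m : ℕ) {θ η δ Θ ζ : ℝ}
    (hθ : 6 ≤ θ) (hη : 0 < η) (hθη : 3 * θ * η ≤ 1) (hδ : 0 < δ) (hδ1 : δ ≤ 1 / 4)
    (hm : 1 ≤ m * (δ * η)) (hΘ : 0 ≤ Θ) 
    (H1 : 2 * k * (m * (3 * θ * η) + 1) ≤ m * ((θ / (1 + δ) - Θ) * ζ)) (H' : Θ ≤ θ / (1 + δ)) :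
    ∃ A : List X → G' → ℕ, (∀ c, S.Re [] → A [] c = 0) ∧
      (∀ h c, S.Re h → S.Lo lab' m (θ / (1 - δ)) (η / 2) h c (A h c) ∧
        (A h c : ℝ) ≤ 2 * m * S.post h fun ω => cnt (S.lb lab' h ω) c) ∧
      (∀ h g (e : ℕ) (B : ℝ), S.Re h → S.Lo lab m Θ ζ h g B →
        (∀ ω, S.hist ω h.length = h → e ≤ (univ.filter fun i =>
          S.lb lab h ω i = some g ∧ S.lb lab' h ω i = none).card) →
        m * e + ∑ c, (if par c = g then (A h c : ℝ) else 0) ≤ B) ∧
      S.Ex (fun t ω => ∑ c, w c * |(A (S.hist ω (t + 1)) c : ℝ) - A (S.hist ω t) c|) ≤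
        m * (θ + 1) * (6 / δ * log (1 + 1 / η)) * S.Vc lab' w := by
  let Z : G' → ℕ → List X → ℝ := fun c i h => S.post h (S.few lab' c i h)
  let b : List X → G' → ℕ → ℕ := fun h c i => bv m θ η (lazy δ η (Z c i) h)
  have fm := few_mem (S := S) lab'
  have hZ : ∀ c i h, S.Re h → Z c i h ∈ Set.Icc (0 : ℝ) 1 := fun c i h H => post_few lab' c i H
  have hb := fun h c i (H : S.Re h) => bv_spec m hθ hη hθη hδ hδ1 (lazy_mem _ (hZ c i) h H).1
    (hZ c i h H).1 (lazy_close (Z c i) hδ.le hη.le h (hZ c i h H).1)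
  have hm0 : (0 : ℝ) ≤ m := m.cast_nonneg
  have z1 : ∀ h c i, S.Re h → Z c i h = 1 → b h c i = 0 := fun h c i H h1 => by
    by_contra h2
    have := ((hb h c i H).2.2 (Nat.pos_of_ne_zero h2)).2
    linarith
  have b2 : ∀ h c i, S.Re h → (if 0 < b h c i then 1 else 0 : ℝ) ≤ 2 * (1 - Z c i h) := by
    intro h c i H
    split_ifs with h1
    · linarith [((hb h c i H).2.2 h1).2]
    · linarith [(hZ c i h H).2]
  refine ⟨fun h c => ∑ i ∈ range k, b h c i, fun c H => sum_eq_zero fun i _ => z1 _ _ _ H ?_,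
    fun h c H => ⟨fun N => ?_, ?_⟩, fun h g e B H hB he => ?_, ?_⟩
  · rw [← post_const H 1]
    exact congrArg (S.post []) (funext fun ω => by simp [few, cnt, lb, pos_zero, h0])
  · have h1 : ∑ i ∈ range N, (b h c i : ℝ) ≤ ∑ i ∈ range k, (b h c i : ℝ) :=
      Nat.cast_sum (R := ℝ) _ _ ▸ Nat.cast_sum (R := ℝ) _ _ ▸ Nat.cast_le.2
        (sum_le_sum_of_ne_zero fun i _ h1 => by
        by_contra h2
        refine h1 (z1 h c i H ?_)
        rw [← post_const H 1]
        exact congrArg (S.post h) (funext fun ω => if_pos ((cnt_le _ _).trans (by simpa using h2))))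
    push_cast
    refine ⟨le_trans ?_ h1, fun h2 => le_trans ?_ h1⟩
    · refine le_trans (le_of_eq ?_) (sum_le_sum fun i _ => (hb h c i H).1)
      rw [← mul_sum, sum_sub_distrib, ← mul_sum]; simp [Z]
    · refine le_trans (by simp [mul_comm]) (sum_le_sum (f := fun _ => (m : ℝ)) fun i hi => ?_)
      exact_mod_cast (hb h c i H).2.1 ((single_le_sum (fun i _ => (hZ c i h H).1) hi).trans h2)
  · rw [← sum_post_few _ c H, mul_sum]
    push_cast
    refine sum_le_sum fun i _ => ?_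
    have h1 := b2 h c i H
    have h2 : (b h c i : ℝ) ≤ m := by exact_mod_cast bv_le _ _ _ _
    split_ifs at h1 with h3
    · nlinarith
    · rw [show b h c i = 0 by omega]; push_cast; nlinarith
  · exact superadd lab lab' par hp m (by positivity) hΘ H1 H' H (b h) (fun _ _ => bv_le _ _ _ _)
      (fun c i => (hb h c i H).2.2) g e B hB he
  · have hL : 0 ≤ 6 / δ * log (1 + 1 / η) :=
      mul_nonneg (by positivity) (log_nonneg (by linarith [one_div_pos.2 hη]))
    have h1 : ∀ c i, S.Ex (fun t ω => |(b (S.hist ω (t + 1)) c i : ℝ) - b (S.hist ω t) c i|) ≤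
        m * (θ + 1) * (6 / δ * log (1 + 1 / η)) * S.Ex fun t ω =>
          |S.few lab' c i (S.hist ω (t + 1)) ω - S.few lab' c i (S.hist ω t) ω| := by
      intro c i
      have := track (S.few lab' c i) (fm c i) (fun ω => by simp [few, cnt, lb, pos_zero, h0]) hδ
        (by linarith) hη
      rw [mul_assoc]
      refine le_trans ?_ (mul_le_mul_of_nonneg_left this (by positivity))
      rw [← Ex_mul]
      refine Ex_mono fun t ω => ?_
      have h2 := bv_lip m (by linarith : 0 ≤ θ) η (lazy δ η (Z c i) (S.hist ω (t + 1)))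
        (lazy δ η (Z c i) (S.hist ω t))
      have h3 := (lazy_mem (δ := δ) (η := η) _ (hZ c i) _ (re_hist ω t)).1
      change |(bv _ _ _ _ : ℝ) - bv _ _ _ _| ≤ _ * |lazy δ η (Z c i) _ - lazy δ η (Z c i) _|
      simp only [hist, lazy] at h2 ⊢
      split_ifs at h2 ⊢ with h4
      · simp
      · have h5 := mul_le_mul_of_nonneg_left (not_le.1 h4).le hm0
        nlinarith [mul_nonneg hm0 (mul_nonneg hδ.le h3)]
    refine (Ex_mono (G := fun t ω => ∑ c, w c * ∑ i ∈ range k,
      |(b (S.hist ω (t + 1)) c i : ℝ) - b (S.hist ω t) c i|) fun t ω => sum_le_sum fun c _ =>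
        mul_le_mul_of_nonneg_left ?_ (hw c)).trans ?_
    · push_cast
      rw [← sum_sub_distrib]
      exact abs_sum_le_sum_abs _ _
    simp only [Ex_sum, Ex_mul]
    refine (sum_le_sum fun c _ => mul_le_mul_of_nonneg_left (sum_le_sum fun i _ => h1 c i)
      (hw c)).trans ?_
    simp only [← mul_sum, mul_left_comm (w _)]
    refine mul_le_mul_of_nonneg_left ?_ (by positivity)
    simp only [← Ex_sum, ← Ex_mul]
    refine Ex_mono fun t ω => le_trans (sum_le_sum fun c _ => ?_) (cnt_diff hw _ _)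
    exact mul_le_mul_of_nonneg_left (few_lip _ _ k) (hw c)

end Scen

end Vale.Agent.P304
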