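import Vale.Agent.P304.Round

/-! Averaging over one uniform parameter; random shells and random cells. -/

namespace Vale.Agent.P304

open Finset MeasureTheory Real

/-- the average of `F` over the unit interval is at most `m` -/
def AvgLe (F : ℝ → ℝ) (m : ℝ) : Prop := ∃ G : ℝ → ℝ, IntegrableOn G (Set.Ico 0 1) ∧
  (∀ V ∈ Set.Ico (0 : ℝ) 1, F V ≤ G V) ∧ ∫ V in Set.Ico 0 1, G V ≤ m

lemma AvgLe.mono {F F' : ℝ → ℝ} {m m' : ℝ} (h : AvgLe F m)
    (h1 : ∀ V ∈ Set.Ico (0 : ℝ) 1, F' V ≤ F V) (h2 : m ≤ m') : AvgLe F' m' := by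
  obtain ⟨G, a, b, c⟩ := h
  exact ⟨G, a, fun V hV => (h1 V hV).trans (b V hV), c.trans h2⟩

lemma avg_const (m : ℝ) : AvgLe (fun _ => m) m :=
  ⟨fun _ => m, integrableOn_const (by simp), fun _ _ => le_rfl, by simp⟩

lemma AvgLe.add {F F' : ℝ → ℝ} {m m' : ℝ} (h : AvgLe F m) (h' : AvgLe F' m') :
    AvgLe (fun V => F V + F' V) (m + m') := by
  obtain ⟨G, a, b, c⟩ := h
  obtain ⟨G', a', b', c'⟩ := h'
  exact ⟨fun V => G V + G' V, a.add a', fun V hV => add_le_add (b V hV) (b' V hV), by
    rw [integral_add a a']; exact add_le_add c c'⟩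

lemma AvgLe.mul {F : ℝ → ℝ} {m : ℝ} (h : AvgLe F m) {w : ℝ} (hw : 0 ≤ w) :
    AvgLe (fun V => w * F V) (w * m) := by
  obtain ⟨G, a, b, c⟩ := h
  exact ⟨fun V => w * G V, a.const_mul w, fun V hV => mul_le_mul_of_nonneg_left (b V hV) hw, by
    rw [integral_const_mul]; exact mul_le_mul_of_nonneg_left c hw⟩

lemma avg_sum {E : Type*} (s : Finset E) (F : E → ℝ → ℝ) (m : E → ℝ)
    (h : ∀ e, AvgLe (F e) (m e)) : AvgLe (fun V => ∑ e ∈ s, F e V) (∑ e ∈ s, m e) := by
  induction s using Finset.cons_induction with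
  | empty => simpa using avg_const 0
  | cons a s ha ih => simpa only [sum_cons] using (h a).add ih

lemma AvgLe.exists {F : ℝ → ℝ} {m : ℝ} (h : AvgLe F m) : ∃ V ∈ Set.Ico (0 : ℝ) 1, F V ≤ m := by
  obtain ⟨G, a, b, c⟩ := h
  haveI : IsProbabilityMeasure (volume.restrict (Set.Ico (0 : ℝ) 1)) := ⟨by simp⟩
  obtain ⟨V, h1, h2⟩ := exists_notMem_null_le_integral (N := (Set.Ico (0 : ℝ) 1)ᶜ) a
    (by rw [Measure.restrict_apply measurableSet_Ico.compl]; simp)
  rw [Set.notMem_compl_iff] at h1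
  exact ⟨V, h1, (b V h1).trans (h2.trans c)⟩

/-- clamp to the unit interval -/
def cl (x : ℝ) : ℝ := max 0 (min x 1)

lemma avg_ind {a b : ℝ} (h : a ≤ b) :
    AvgLe (fun V => if a ≤ V ∧ V < b then 1 else 0) (cl b - cl a) := by
  refine ⟨(Set.Ico a b).indicator 1, (integrableOn_const (by simp)).indicator measurableSet_Ico,
    fun V _ => by simp [Set.indicator_apply], ?_⟩
  rw [integral_indicator_one measurableSet_Ico, Measure.real,
    Measure.restrict_apply measurableSet_Ico, Set.Ico_inter_Ico, Real.volume_Ico,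
    ENNReal.toReal_ofReal']
  unfold cl
  simp only [max_def, min_def]
  split_ifs <;> linarith

lemma cl_lip {a b : ℝ} (h : a ≤ b) : cl b - cl a ≤ b - a := by
  unfold cl
  simp only [max_def, min_def]
  split_ifs <;> linarith

/-- the level of a distance -/
noncomputable def lev (β V d : ℝ) : ℕ := ⌊logb 2 (d / (2 * β)) + V⌋₊

lemma lev_spec {β V d : ℝ} (hβ : 0 < β) (hV : V ∈ Set.Ico (0 : ℝ) 1) (hd : 2 * β ≤ d) :
    β * 2 ^ lev β V d ≤ d ∧ d ≤ 4 * (β * 2 ^ lev β V d) := by
  have h0 : 0 < d / (2 * β) := div_pos (by linarith) (by linarith)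
  have h1 : 0 ≤ logb 2 (d / (2 * β)) :=
    logb_nonneg one_lt_two (by rw [le_div_iff₀ (by linarith)]; linarith)
  have h2 := Nat.floor_le (add_nonneg h1 hV.1)
  have h3 := Nat.lt_floor_add_one (logb 2 (d / (2 * β)) + V)
  have h4 : ((lev β V d : ℝ) - 1) ≤ logb 2 (d / (2 * β)) := by unfold lev; linarith [hV.2]
  have h5 : logb 2 (d / (2 * β)) ≤ (lev β V d : ℝ) + 1 := by unfold lev; linarith [hV.1]
  rw [le_logb_iff_rpow_le one_lt_two h0, rpow_sub two_pos, rpow_natCast, rpow_one,
    div_le_div_iff₀ two_pos (by linarith)] at h4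
  rw [logb_le_iff_le_rpow one_lt_two h0, rpow_add two_pos, rpow_natCast, rpow_one,
    div_le_iff₀ (by linarith)] at h5
  constructor <;> linarith

open Classical in
/-- shell label of a distance -/
noncomputable def shell (β V d : ℝ) : Option ℕ := if d = 0 then none else some (lev β V d)

lemma shell_le {β V d : ℝ} (hβ : 0 < β) (hV : V ∈ Set.Ico (0 : ℝ) 1) (hd : d = 0 ∨ 2 * β ≤ d) :
    (shell β V d).elim 0 (fun j => β * 2 ^ j) ≤ d := by
  unfold shell
  split_ifs with h
  · exact h.ge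
  · exact (lev_spec hβ hV (hd.resolve_left h)).1

lemma avg_shell {β a b : ℝ} (hβ : 0 < β) (ha : a = 0 ∨ 2 * β ≤ a) (hb : b = 0 ∨ 2 * β ≤ b) :
    AvgLe (fun V => wd (fun j => β * 2 ^ j) (shell β V a) (shell β V b)) (9 * |a - b|) := by
  wlog hab : a ≤ b generalizing a b
  · refine (this hb ha (not_le.1 hab).le).mono (fun V _ => le_of_eq ?_) (by rw [abs_sub_comm])
    unfold wd
    rw [add_comm]; simp only [eq_comm]
  have hw : ∀ V ∈ Set.Ico (0 : ℝ) 1,
      wd (fun j => β * 2 ^ j) (shell β V a) (shell β V b) ≤ a + b := fun V hV =>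
    (wd_le (fun _ => by positivity) _ _).trans (add_le_add (shell_le hβ hV ha) (shell_le hβ hV hb))
  rw [abs_sub_comm, abs_of_nonneg (by linarith)]
  by_cases h2 : 2 * a ≤ b
  · exact (avg_const (a + b)).mono hw (by linarith)
  have ha' : 2 * β ≤ a := ha.resolve_left (by rintro rfl; linarith)
  have ha0 : 0 < a := by linarith
  have hb0 : 0 < b := by linarith
  set x := logb 2 (a / (2 * β)) with hx
  set y := logb 2 (b / (2 * β)) with hy
  have hx0 : 0 ≤ x := logb_nonneg one_lt_two (by rw [le_div_iff₀ (by linarith)]; linarith)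
  have hxy : x ≤ y := logb_le_logb_of_le one_lt_two (by positivity) (by gcongr)
  have hl : (2 / 3 : ℝ) ≤ log 2 := by linarith [log_two_gt_d9]
  have h3 : (y - x) * log 2 = log (b / a) := by
    rw [hx, hy, ← logb_div (by positivity) (by positivity), logb, div_mul_cancel₀ _ (by linarith)]
    congr 1; field_simp
  have h4 : log (b / a) ≤ log 2 := log_le_log (by positivity) (by rw [div_le_iff₀ ha0]; linarith)
  have h5 : log (b / a) * a ≤ b - a := by
    have := log_le_sub_one_of_pos (show 0 < b / a by positivity)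
    rwa [div_sub_one ha0.ne', le_div_iff₀ ha0] at this
  have h6 : y - x ≤ 1 := by nlinarith
  have i1 := avg_ind (a := ⌊x⌋₊ + 1 - y) (b := ⌊x⌋₊ + 1 - x) (by linarith)
  have i2 := avg_ind (a := ⌊x⌋₊ + 2 - y) (b := ⌊x⌋₊ + 2 - x) (by linarith)
  refine ((i1.add i2).mul (w := a + b) (by linarith)).mono (fun V hV => ?_) ?_
  · by_cases h7 : lev β V a = lev β V b
    · have : shell β V a = shell β V b := by
        unfold shell; rw [if_neg ha0.ne', if_neg (by linarith), h7]
      rw [wd, if_pos this]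
      positivity
    · refine (hw V hV).trans (le_mul_of_one_le_right (by linarith) ?_)
      have h8 : ⌊x + V⌋₊ < ⌊y + V⌋₊ := lt_of_le_of_ne (Nat.floor_mono (by linarith)) h7
      have h9 : ((⌊x + V⌋₊ + 1 : ℕ) : ℝ) ≤ y + V :=
        (Nat.cast_le.2 h8).trans (Nat.floor_le (by linarith [hV.1]))
      have h10 := Nat.lt_floor_add_one (x + V)
      have h11 : ⌊x⌋₊ ≤ ⌊x + V⌋₊ := Nat.floor_mono (by linarith [hV.1])
      have h12 : ⌊x + V⌋₊ ≤ ⌊x⌋₊ + 1 := by
        rw [← Nat.floor_add_one hx0]; exact Nat.floor_mono (by linarith [hV.2])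
      push_cast at h9
      rcases (by omega : ⌊x + V⌋₊ = ⌊x⌋₊ ∨ ⌊x + V⌋₊ = ⌊x⌋₊ + 1) with h | h <;> rw [h] at h9 h10
      · rw [if_pos ⟨by linarith, by linarith⟩]; split_ifs <;> norm_num
      · push_cast at h9 h10
        rw [if_pos (c := _ + 2 - _ ≤ _ ∧ _) ⟨by linarith, by linarith⟩]; split_ifs <;> norm_num
  · have j1 := cl_lip (a := ⌊x⌋₊ + 1 - y) (b := ⌊x⌋₊ + 1 - x) (by linarith)
    have j2 := cl_lip (a := ⌊x⌋₊ + 2 - y) (b := ⌊x⌋₊ + 2 - x) (by linarith)
    have j3 : (y - x) * a * (2 / 3) ≤ b - a := by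
      rw [← h3] at h5
      nlinarith [mul_nonneg (sub_nonneg.2 hxy) ha0.le]
    refine (mul_le_mul_of_nonneg_left (add_le_add j1 j2) (by linarith)).trans ?_
    nlinarith

/-- distribution function of the truncated exponential radius -/
noncomputable def gg (l x : ℝ) : ℝ := (1 - exp (-(l * (x - 1)))) / (1 - exp (-l))

lemma gg_mono {l x y : ℝ} (hl : 0 < l) (h : x ≤ y) : gg l x ≤ gg l y := by
  have h0 : 0 < 1 - exp (-l) := sub_pos.2 (exp_lt_one_iff.2 (by linarith))
  unfold gg
  gcongr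

lemma gg_one (l : ℝ) : gg l 1 = 0 := by simp [gg]

lemma gg_two {l : ℝ} (hl : 0 < l) : gg l 2 = 1 := by
  have h0 : 0 < 1 - exp (-l) := sub_pos.2 (exp_lt_one_iff.2 (by linarith))
  rw [gg, div_eq_one_iff_eq h0.ne']; norm_num

lemma gg_lip {l x y : ℝ} (hl : 0 < l) (h : x ≤ y) : cl (gg l y) - cl (gg l x) ≤
    l * (y - x) * (1 - cl (gg l x) + exp (-l) / (1 - exp (-l))) := by
  have h0 : 0 < 1 - exp (-l) := sub_pos.2 (exp_lt_one_iff.2 (by linarith))
  have key : ∀ x y, x ≤ y → gg l y - gg l x ≤ l * (y - x) * (1 - gg l x + exp (-l) / (1 - exp (-l))) := by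
    intro x y h
    have h1 := add_one_le_exp (-(l * (y - x)))
    have h2 : exp (-(l * (y - 1))) = exp (-(l * (x - 1))) * exp (-(l * (y - x))) := by
      rw [← exp_add]; congr 1; ring
    have h3 := exp_pos (-(l * (x - 1)))
    unfold gg
    rw [h2, ← sub_div, div_le_iff₀ h0]
    field_simp
    nlinarith
  have he : 0 ≤ exp (-l) / (1 - exp (-l)) := by positivity
  have hd : 0 ≤ l * (y - x) := mul_nonneg hl.le (by linarith)
  have c1 : cl (gg l y) ≤ 1 := max_le zero_le_one (min_le_right _ _)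
  rcases le_total 2 x with h2 | h2
  · have := gg_mono hl h2
    rw [gg_two hl] at this
    rw [show cl (gg l x) = 1 by simp [cl, this]]
    nlinarith
  have h3 := gg_mono hl h2
  rw [gg_two hl] at h3
  rcases le_total 1 x with h1 | h1
  · have h4 := gg_mono hl h1
    rw [gg_one] at h4
    have h5 : cl (gg l y) ≤ gg l y := max_le (h4.trans (gg_mono hl h)) (min_le_left _ _)
    rw [show cl (gg l x) = gg l x by simp [cl, h3, h4]]
    linarith [key x y h]
  · have h4 := gg_mono hl h1
    rw [gg_one] at h4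
    rw [show cl (gg l x) = 0 by simp [cl, h4]]
    rcases le_total y 1 with h5 | h5
    · have h6 := gg_mono hl h5
      rw [gg_one] at h6
      rw [show cl (gg l y) = 0 by simp [cl, h6]]
      nlinarith
    · have h6 := gg_mono hl h5
      have h7 := key 1 y h5
      rw [gg_one] at h6 h7
      have h8 : cl (gg l y) ≤ gg l y := max_le h6 (min_le_left _ _)
      nlinarith [mul_nonneg (mul_nonneg hl.le (sub_nonneg.2 h1)) (add_nonneg zero_le_one he)]

variable {X : Type*}

open Classical in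
/-- the first center covering a point -/
noncomputable def cell (g : X → ℝ) : List X → List ℝ → Option X
  | c :: L, v :: Vs => if g c ≤ v then some c else cell g L Vs
  | _, _ => none

lemma cell_append (g : X → ℝ) (r : List X) : ∀ (L : List X) (Vs : List ℝ) (c : X),
    cell g L Vs = some c → cell g (L ++ r) Vs = some c
  | [], _, _, h => by simp [cell] at h
  | _ :: _, [], _, h => by simp [cell] at h
  | a :: L, v :: Vs, c, h => by
    simp only [cell, List.cons_append] at h ⊢
    split_ifs at h ⊢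
    exacts [h, cell_append g r L Vs c h]

lemma cell_lt (g : X → ℝ) : ∀ (L : List X) (Vs : List ℝ) (c : X), (∀ v ∈ Vs, v < 1) →
    cell g L Vs = some c → g c < 1
  | [], _, _, _, h => by simp [cell] at h
  | _ :: _, [], _, _, h => by simp [cell] at h
  | a :: L, v :: Vs, c, hV, h => by
    simp only [cell] at h
    split_ifs at h with h1
    · exact Option.some.inj h ▸ h1.trans_lt (hV v (by simp))
    · exact cell_lt g L Vs c (fun v hv => hV v (by simp [hv])) h

lemma cell_ne (g : X → ℝ) : ∀ (L : List X) (Vs : List ℝ) (c : X), (∀ v ∈ Vs, 0 ≤ v) →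
    L.length ≤ Vs.length → c ∈ L → g c ≤ 0 → cell g L Vs ≠ none
  | [], _, _, _, _, h, _ => by simp at h
  | _ :: _, [], _, _, h, _, _ => by simp at h
  | a :: L, v :: Vs, c, hV, h1, h2, h3 => by
    simp only [cell]
    split_ifs with h4
    · simp
    · rcases List.mem_cons.1 h2 with rfl | h5
      · exact absurd (h3.trans (hV v (by simp))) h4
      · exact cell_ne g L Vs c (fun v hv => hV v (by simp [hv])) (by simpa using h1) h5 h3

open Classical in
theorem cells {E : Type*} (s : Finset E) (g g' : E → X → ℝ) (δ : E → ℝ) (hδ : ∀ e, 0 ≤ δ e)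
    (ε : ℝ) (hε : 0 ≤ ε) (h : ∀ e c, cl (max (g e c) (g' e c)) - cl (min (g e c) (g' e c)) ≤
      δ e * (1 - cl (min (g e c) (g' e c)) + ε)) (n : ℕ) : ∀ (W : E → ℝ) (L : E → List X),
    (∀ e, 0 ≤ W e) → ∃ Vs : List ℝ, Vs.length = n ∧ (∀ v ∈ Vs, v ∈ Set.Ico (0 : ℝ) 1) ∧
      ∑ e ∈ s, W e * (if cell (g e) (L e) Vs = cell (g' e) (L e) Vs then 0 else 1) ≤
        ∑ e ∈ s, W e * (δ e * (1 + n * ε)) := by
  induction n with
  | zero =>
    intro W L hW
    refine ⟨[], rfl, by simp, sum_le_sum fun e _ => mul_le_mul_of_nonneg_left ?_ (hW e)⟩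
    cases L e <;> simp [cell, hδ]
  | succ n ih =>
    intro W L hW
    let a : E → ℝ := fun e => (L e).head?.elim 1 fun c => min (g e c) (g' e c)
    let b : E → ℝ := fun e => (L e).head?.elim 1 fun c => max (g e c) (g' e c)
    have hab : ∀ e, a e ≤ b e := fun e => by
      simp only [a, b]; cases (L e).head? <;> simp
    have h1 : ∀ e, cl (b e) - cl (a e) ≤ δ e * (1 - cl (a e) + ε) := fun e => by
      simp only [a, b]
      cases (L e).head? with
      | none => simpa [cl] using mul_nonneg (hδ e) hε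
      | some c => exact h e c
    have hn : ∀ e, 0 ≤ δ e * (1 + n * ε) := fun e => mul_nonneg (hδ e) (by positivity)
    obtain ⟨V, hV, h2⟩ := (avg_sum s _ _ fun e => ((avg_ind (hab e)).add
      ((avg_ind (min_le_right 0 (a e))).mul (hn e))).mul (hW e)).exists
    obtain ⟨Vs, k1, k2, k3⟩ := ih (fun e => W e * if V < a e then 1 else 0) (fun e => (L e).tail)
      fun e => mul_nonneg (hW e) (by split_ifs <;> norm_num)
    refine ⟨V :: Vs, by simp [k1], List.forall_mem_cons.2 ⟨hV, k2⟩, le_trans ?_ (h2.trans ?_)⟩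
    · simp only [mul_add, sum_add_distrib]
      refine le_trans ?_ (add_le_add le_rfl (k3.trans (sum_le_sum fun e _ => le_of_eq ?_)))
      · rw [← sum_add_distrib]
        refine sum_le_sum fun e _ => ?_
        rw [mul_assoc, ← mul_add]
        refine mul_le_mul_of_nonneg_left ?_ (hW e)
        rcases hL : L e with _ | ⟨c, L⟩
        · simp [a, b, hL, cell, hV.2.not_ge]
        · simp only [a, b, hL, cell, List.head?_cons, Option.elim, List.tail_cons, min_le_iff, lt_max_iff,
            lt_min_iff, ← not_le]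
          by_cases h3 : g e c ≤ V <;> by_cases h4 : g' e c ≤ V <;> simp [h3, h4] <;>
            split_ifs <;> simp_all
      · simp only [min_le_iff, hV.1, true_or, true_and]
        ring
    · refine sum_le_sum fun e _ => mul_le_mul_of_nonneg_left ?_ (hW e)
      have c0 : cl (min 0 (a e)) = 0 := by simp [cl]
      have c1 : cl (a e) ≤ 1 := max_le zero_le_one (min_le_right _ _)
      have := h1 e
      rw [c0]
      push_cast
      nlinarith [mul_nonneg (mul_nonneg (hδ e) (mul_nonneg n.cast_nonneg hε)) (sub_nonneg.2 c1)]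

end Vale.Agent.P304
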