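import Vale.Agent.P304.Embed

/-! Online padded cells inside shells. -/

namespace Vale.Agent.P304

open Finset Real

universe u

variable {X : Type u} [MetricSpace X]

/-- closeness to a list of centers -/
noncomputable def psi (u : ℝ) (L : List X) (x : X) : ℝ :=
  L.foldr (fun c m => max (1 - dist x c / u) m) 0

lemma psi_mem {u : ℝ} (hu : 0 < u) (L : List X) (x : X) : 0 ≤ psi u L x ∧ psi u L x ≤ 1 := by
  induction L with
  | nil => simp [psi]
  | cons c L ih =>
    exact ⟨le_max_of_le_right ih.1, max_le (sub_le_self _ (div_nonneg dist_nonneg hu.le)) ih.2⟩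

lemma le_psi (u : ℝ) {L : List X} (x : X) {c : X} (h : c ∈ L) : 1 - dist x c / u ≤ psi u L x := by
  induction L with
  | nil => simp at h
  | cons a L ih =>
    rcases List.mem_cons.1 h with rfl | h
    exacts [le_max_left _ _, le_max_of_le_right (ih h)]

lemma psi_le (u : ℝ) {L : List X} (x : X) {m : ℝ} (h0 : 0 ≤ m)
    (h : ∀ c ∈ L, 1 - dist x c / u ≤ m) : psi u L x ≤ m := by
  induction L with
  | nil => exact h0
  | cons a L ih => exact max_le (h a (by simp)) (ih fun c hc => h c (by simp [hc]))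

lemma psi_lip {u : ℝ} (hu : 0 < u) (L M : List X) (x y : X) :
    psi u L x ≤ psi u (L ++ M) y + dist x y / u := by
  refine psi_le u x (add_nonneg (psi_mem hu _ _).1 (div_nonneg dist_nonneg hu.le)) fun c hc => ?_
  have h1 := le_psi u y (List.mem_append_left M hc)
  have h2 := div_le_div_of_nonneg_right (dist_triangle_left y c x) hu.le
  rw [add_div] at h2
  linarith

lemma psi_far {u : ℝ} (hu : 0 < u) {L : List X} (x y : X) (h : ∀ c ∈ L, u < dist y c) :
    psi u L x ≤ dist x y / u := by
  refine psi_le u x (div_nonneg dist_nonneg hu.le) fun c hc => ?_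
  have h2 := div_le_div_of_nonneg_right ((h c hc).le.trans (dist_triangle_left y c x)) hu.le
  rw [add_div, div_self hu.ne'] at h2
  linarith

omit [MetricSpace X] in
lemma cover_ext [DecidableEq X] (g g' : X → ℝ) (L M : List X) (Vs : List ℝ) (x y : X)
    (h : (y = x ∧ g' = g) ∨ cell g' (L ++ M) Vs ≠ none) :
    ((if (cell g L Vs).getD x = (cell g' (L ++ M) Vs).getD y then 0 else 1) +
      if cell g' (L ++ M) Vs = none then 1 else 0 : ℝ) ≤ (if cell g L Vs = none then 1 else 0) +
      if cell g (L ++ M) Vs = cell g' (L ++ M) Vs then 0 else 1 := by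
  rcases h1 : cell g L Vs with _ | c
  · rcases h2 : cell g' (L ++ M) Vs with _ | c'
    · obtain ⟨rfl, rfl⟩ := h.resolve_right (by simp [h2])
      simp [h2]
    · simp only [reduceCtorEq, if_false, if_true]
      split_ifs <;> norm_num
  · rw [cell_append g M L Vs c h1]
    rcases h2 : cell g' (L ++ M) Vs with _ | c'
    · obtain ⟨rfl, rfl⟩ := h.resolve_right (by simp [h2])
      rw [cell_append _ M L Vs c h1] at h2
      simp at h2
    · simp

open Classical in
/-- lists of centers, one for each level, restarted when full -/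
noncomputable def lists (p : List X → X → ℕ → Prop) (u : ℕ → ℝ) (N : ℕ) : List X → ℕ → List X
  | [] => fun _ => []
  | r :: h => fun j => if p (r :: h) r j ∧ ∀ c ∈ lists p u N h j, u j < dist r c then
      (if (lists p u N h j).length < N then lists p u N h j ++ [r] else [r]) else lists p u N h j

lemma lists_len (p : List X → X → ℕ → Prop) (u : ℕ → ℝ) {N : ℕ} (hN : 0 < N) (j : ℕ) :
    ∀ h, (lists p u N h j).length ≤ N
  | [] => Nat.zero_le _
  | r :: h => by
    simp only [lists]
    split_ifs with h1 h2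
    · simpa using h2
    · exact hN
    · exact lists_len p u hN j h

lemma lists_cov (p : List X → X → ℕ → Prop) (u : ℕ → ℝ) (hu : ∀ j, 0 ≤ u j) (N : ℕ) (j : ℕ)
    (r : X) (h : List X) (H : p (r :: h) r j) : ∃ c ∈ lists p u N (r :: h) j, dist r c ≤ u j := by
  simp only [lists]
  split_ifs with h1 h2
  · exact ⟨r, by simp, by simpa using hu j⟩
  · exact ⟨r, by simp, by simpa using hu j⟩
  · simpa [H] using h1

namespace Scen

variable {k : ℕ} {S : Scen X k} {G : Type u} [DecidableEq G] [DecidableEq X]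

theorem refine_cells (lab : List X → X → Option G) (lv : G → ℕ) (J : ℕ) (hJ : ∀ g, lv g < J)
    (β ρ : ℝ) (hβ : 0 < β) (hρ : 0 < ρ) (h0 : lab [] S.x0 = none) :
    ∃ lab2 : List X → X → Option (G × X),
      (∀ h x g, lab2 h x = some g → lab h x = some g.1 ∧ dist x g.2 ≤ 2 * ρ * (β * 2 ^ lv g.1)) ∧
      (∀ h x, lab2 h x = none → lab h x = none) ∧
      S.Vc lab2 (fun g => β * 2 ^ lv g.1) ≤ 7 * S.Vc lab (fun g => β * 2 ^ lv g) +
        4 * (1 + log (2 * k + 2)) / ρ * S.OPT := by
  classical
  set l := log (2 * k + 2) with hl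
  have hl0 : 0 < l := log_pos (by linarith [(k.cast_nonneg : (0 : ℝ) ≤ k)])
  let s : ℕ → ℝ := fun j => β * 2 ^ j
  have hs : ∀ j, 0 < s j := fun j => by positivity
  let u : ℕ → ℝ := fun j => ρ * s j
  have hu : ∀ j, 0 < u j := fun j => mul_pos hρ (hs j)
  let L := lists (fun h r j => ∃ g, lab h r = some g ∧ lv g = j) u (2 * k + 1)
  let gx : ℕ → X → X → ℝ := fun j x c => gg l (dist x c / u j)
  let jn : ℕ × S.Ω × Fin k → ℕ := fun e => (S.lb lab (S.hist e.2.1 (e.1 + 1)) e.2.1 e.2.2).elim 0 lv
  obtain ⟨Vs, v1, v2, v3⟩ := cells (range S.T ×ˢ (univ : Finset (S.Ω × Fin k)))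
    (fun e => gx (jn e) (S.pos e.2.1 e.1 e.2.2)) (fun e => gx (jn e) (S.pos e.2.1 (e.1 + 1) e.2.2))
    (fun e => l * (S.mv e.1 e.2.1 e.2.2 / u (jn e)))
    (fun e => mul_nonneg hl0.le (div_nonneg dist_nonneg (hu _).le)) (exp (-l) / (1 - exp (-l)))
    (div_nonneg (exp_pos _).le (sub_pos.2 (exp_lt_one_iff.2 (by linarith))).le) (fun e c => by
      have h1 := abs_le.1 (abs_dist_sub_le (S.pos e.2.1 e.1 e.2.2) (S.pos e.2.1 (e.1 + 1) e.2.2) c)
      have h2 : 0 ≤ 1 - cl (min (gx (jn e) (S.pos e.2.1 e.1 e.2.2) c)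
          (gx (jn e) (S.pos e.2.1 (e.1 + 1) e.2.2) c)) + exp (-l) / (1 - exp (-l)) :=
        add_nonneg (sub_nonneg.2 (max_le zero_le_one (min_le_right _ _)))
          (div_nonneg (exp_pos _).le (sub_pos.2 (exp_lt_one_iff.2 (by linarith))).le)
      rcases le_total (dist (S.pos e.2.1 e.1 e.2.2) c) (dist (S.pos e.2.1 (e.1 + 1) e.2.2) c)
        with h3 | h3 <;> have h4 := div_le_div_of_nonneg_right h3 (hu (jn e)).le <;>
        have h5 := gg_mono hl0 h4
      · rw [min_eq_left h5] at h2
        rw [min_eq_left h5, max_eq_right h5]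
        refine (gg_lip hl0 h4).trans (mul_le_mul_of_nonneg_right ?_ h2)
        rw [← sub_div]
        gcongr
        unfold mv; linarith
      · rw [min_eq_right h5] at h2
        rw [min_eq_right h5, max_eq_left h5]
        refine (gg_lip hl0 h4).trans (mul_le_mul_of_nonneg_right ?_ h2)
        rw [← sub_div]
        gcongr
        unfold mv; linarith) (2 * k + 1)
    (fun e => S.q e.2.1 * (2 * s (jn e))) (fun e => L (S.hist e.2.1 (e.1 + 1)) (jn e))
    fun e => (mul_pos (S.hq _) (mul_pos two_pos (hs _))).le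
  let cv : List X → ℕ → X → Option X := fun h j x => cell (gx j x) (L h j) Vs
  let cut : ℕ → S.Ω → Fin k → ℝ := fun t ω i => 2 * s (jn (t, ω, i)) *
    if cv (S.hist ω (t + 1)) (jn (t, ω, i)) (S.pos ω t i) =
      cv (S.hist ω (t + 1)) (jn (t, ω, i)) (S.pos ω (t + 1) i) then 0 else 1
  have hcut : S.Ex (fun t ω => ∑ i, cut t ω i) ≤ 4 * l / ρ * S.OPT := by
    have e0 : exp (-l) = 1 / (2 * k + 2) := by rw [hl, exp_neg, exp_log (by positivity), one_div]
    have e1 : ((2 * k + 1 : ℕ) : ℝ) * (exp (-l) / (1 - exp (-l))) = 1 := by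
      rw [e0, one_sub_div (by positivity), show (2 * k + 2 - 1 : ℝ) = 2 * k + 1 by ring]
      push_cast
      field_simp
    rw [e1, sum_product, sum_product] at v3
    rw [OPT, ← Ex_mul]
    simp only [Ex, Ev, mul_sum, Fintype.sum_prod_type] at v3 ⊢
    refine le_trans (le_of_eq ?_) (v3.trans (le_of_eq ?_)) <;>
      refine sum_congr rfl fun t _ => sum_congr rfl fun ω _ => sum_congr rfl fun i _ => ?_
    · simp only [cut, cv, mul_assoc]
      congr
    · have := hs (jn (t, ω, i))
      simp only [u]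
      field_simp
      ring
  let lab2 : List X → X → Option (G × X) := fun h x =>
    (lab h x).map fun g => (g, (cv h (lv g) x).getD x)
  refine ⟨lab2, fun h x g h1 => ?_, fun h x h1 => by simpa [lab2] using h1, ?_⟩
  · simp only [lab2, Option.map_eq_some_iff] at h1
    obtain ⟨g, h1, rfl⟩ := h1
    refine ⟨h1, ?_⟩
    rcases h2 : cv h (lv g) x with _ | c
    · simpa using (mul_pos (mul_pos two_pos hρ) (hs _)).le
    · have h3 := cell_lt _ _ _ _ (fun v hv => (v2 v hv).2) h2
      by_contra h4
      have h5 : 2 ≤ dist x c / u (lv g) := by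
        rw [le_div_iff₀ (hu _)]; simp only [Option.getD_some, u, s] at h4 ⊢; linarith
      have h6 := gg_mono hl0 h5
      rw [gg_two hl0] at h6
      exact absurd h3 (not_lt.2 h6)
  let th : List X → Option G → X → ℝ := fun h o x => o.elim 0 fun g => s (lv g) *
    (2 * (if cv h (lv g) x = none then 1 else 0) + 4 * (1 - psi (u (lv g)) (L h (lv g)) x))
  have th0 : ∀ h o x, 0 ≤ th h o x ∧ th h o x ≤ 6 * o.elim 0 fun g => s (lv g) := by
    rintro h (_ | g) x
    · simp [th]
    · have := psi_mem (hu (lv g)) (L h (lv g)) x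
      have := hs (lv g)
      simp only [th, Option.elim]
      split_ifs <;> constructor <;> nlinarith
  have key : S.Vc lab2 (fun g => β * 2 ^ lv g.1) ≤ S.Ex fun t ω => 7 * ∑ i,
      wd (fun g => β * 2 ^ lv g) (S.lb lab (S.hist ω t) ω i) (S.lb lab (S.hist ω (t + 1)) ω i) +
      4 / ρ * ∑ i, S.mv t ω i + ∑ i, cut t ω i := by
    refine Ex_pot' (Φ := fun t ω => ∑ i, th (S.hist ω t) (S.lb lab (S.hist ω t) ω i) (S.pos ω t i) +
      4 * ∑ j ∈ range J, s j * (L (S.hist ω t) j).length) (fun t ω => ?_) fun ω => ?_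
    swap
    · refine le_trans (le_of_eq ?_) (add_nonneg (sum_nonneg fun i _ => (th0 _ _ _).1)
        (mul_nonneg (by norm_num) (sum_nonneg fun j _ => mul_nonneg (hs j).le (Nat.cast_nonneg _))))
      simp [lb, hist, pos_zero, h0, th, L, lists]
    set h := S.hist ω t with hh
    set r := S.req ω t with hr
    have hh' : S.hist ω (t + 1) = r :: h := rfl
    have hcov : ∀ g, lab (r :: h) r = some g → cv (r :: h) (lv g) r ≠ none := by
      intro g hg
      obtain ⟨c, h1, h2⟩ := lists_cov (fun h r j => ∃ g, lab h r = some g ∧ lv g = j) u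
        (fun j => (hu j).le) (2 * k + 1) (lv g) r h ⟨g, hg, rfl⟩
      refine cell_ne _ _ _ c (fun v hv => (v2 v hv).1) (v1 ▸ lists_len _ _ (by omega) _ _) h1 ?_
      rw [← gg_one l]
      exact gg_mono hl0 ((div_le_one (hu _)).2 h2)
    -- one server
    have part : ∀ i (E : ℝ), (∀ g, lab (r :: h) (S.pos ω (t + 1) i) = some g →
        (lab h (S.pos ω t i) = some g ∧ 8 * s (lv g) ≤ E) ∨ ((∃ M, L (r :: h) (lv g) = L h (lv g) ++ M) ∧
          (0 ≤ E ∨ (-4 * s (lv g) ≤ E ∧ psi (u (lv g)) (L (r :: h) (lv g)) (S.pos ω (t + 1) i) = 1 ∧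
            cv (r :: h) (lv g) (S.pos ω (t + 1) i) ≠ none ∧
            psi (u (lv g)) (L h (lv g)) (S.pos ω t i) ≤ S.mv t ω i / u (lv g)))) ∨
          (lab h (S.pos ω t i) ≠ some g ∧ 0 ≤ E)) →
        (lab (r :: h) (S.pos ω (t + 1) i) = none → 0 ≤ E) →
        wd (fun g => β * 2 ^ lv g.1) (S.lb lab2 h ω i) (S.lb lab2 (r :: h) ω i) +
          th (r :: h) (S.lb lab (r :: h) ω i) (S.pos ω (t + 1) i) ≤
        th h (S.lb lab h ω i) (S.pos ω t i) + (7 * wd (fun g => β * 2 ^ lv g) (S.lb lab h ω i)
          (S.lb lab (r :: h) ω i) + 4 / ρ * S.mv t ω i + cut t ω i) + E := by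
      intro i E H1 H2
      rw [hh, ← hh']
      simp only [lb_hist]
      rw [hh', ← hh]
      have m0 : 0 ≤ 4 / ρ * S.mv t ω i := mul_nonneg (by positivity) dist_nonneg
      have c0 : 0 ≤ cut t ω i := mul_nonneg (mul_pos two_pos (hs _)).le (by split_ifs <;> norm_num)
      have w2 : ∀ h x, (lab2 h x).elim 0 (fun g => β * 2 ^ lv g.1) =
          (lab h x).elim 0 fun g => s (lv g) := fun h x => by
        simp only [lab2]; cases lab h x <;> rfl
      have w3 := wd_le (w := fun g : G × X => β * 2 ^ lv g.1) (fun _ => by positivity)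
        (lab2 h (S.pos ω t i)) (lab2 (r :: h) (S.pos ω (t + 1) i))
      rw [w2, w2] at w3
      have t1 := th0 h (lab h (S.pos ω t i)) (S.pos ω t i)
      have t2 := th0 (r :: h) (lab (r :: h) (S.pos ω (t + 1) i)) (S.pos ω (t + 1) i)
      have o1 := ow_nonneg (w := fun g => s (lv g)) (fun g => (hs _).le) (lab h (S.pos ω t i))
      by_cases h1 : lab h (S.pos ω t i) = lab (r :: h) (S.pos ω (t + 1) i)
      · rw [wd.eq_1 (fun g => β * 2 ^ lv g), if_pos h1]
        rcases h2 : lab (r :: h) (S.pos ω (t + 1) i) with _ | g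
        · have := H2 h2
          simp only [h1, h2, Option.elim] at w3 t2
          linarith
        rw [h2] at h1
        simp only [h1, h2, Option.elim] at w3 t2 t1
        rcases H1 g h2 with h3 | ⟨⟨M, h3⟩, h4⟩ | h3
        · rw [h1]; linarith
        · have a1 := cover_ext (gx (lv g) (S.pos ω t i)) (gx (lv g) (S.pos ω (t + 1) i))
            (L h (lv g)) M Vs (S.pos ω t i) (S.pos ω (t + 1) i) (by
              by_cases h5 : i = S.ch ω t
              · subst h5
                rw [pos_self] at h2 ⊢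
                exact Or.inr (h3 ▸ hcov g h2)
              · rw [S.pos_ne ω t h5]; exact Or.inl ⟨rfl, rfl⟩)
          have a2 := psi_lip (hu (lv g)) (L h (lv g)) M (S.pos ω t i) (S.pos ω (t + 1) i)
          rw [← h3] at a1 a2
          have a3 : jn (t, ω, i) = lv g := by simp only [jn, lb_hist, hh', h2, Option.elim]
          have a4 : wd (fun g => β * 2 ^ lv g.1) (lab2 h (S.pos ω t i))
              (lab2 (r :: h) (S.pos ω (t + 1) i)) = 2 * s (lv g) *
              if (cv h (lv g) (S.pos ω t i)).getD (S.pos ω t i) =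
                (cv (r :: h) (lv g) (S.pos ω (t + 1) i)).getD (S.pos ω (t + 1) i) then 0 else 1 := by
            simp only [lab2, h1, h2, wd, Option.map_some, Option.some.injEq, Prod.mk.injEq,
              true_and, Option.elim, s]
            split_ifs <;> ring
          have a5 : 4 / ρ * S.mv t ω i = 4 * s (lv g) * (S.mv t ω i / u (lv g)) := by
            have := hs (lv g)
            simp only [u]; field_simp
          have a6 := mul_le_mul_of_nonneg_left a1 (hs (lv g)).le
          have a7 := mul_le_mul_of_nonneg_left a2 (hs (lv g)).le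
          rw [a4, a5]
          simp only [cut, a3, hh', h1, th, Option.elim, cv, mv] at a6 a7 h4 ⊢
          rcases h4 with h4 | ⟨h4, h5, -, h6⟩
          · linarith
          · have a8 := mul_le_mul_of_nonneg_left h6 (hs (lv g)).le
            rw [h5]
            linarith
        · exact absurd h1 h3.1
      · rw [wd.eq_1 (fun g => β * 2 ^ lv g), if_neg h1]
        change _ ≤ _ + (7 * (Option.elim _ 0 (fun g => s (lv g)) +
          Option.elim _ 0 fun g => s (lv g)) + _ + _) + _
        rcases h2 : lab (r :: h) (S.pos ω (t + 1) i) with _ | g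
        · have := H2 h2
          simp only [h2, Option.elim_none] at w3 t2 ⊢
          linarith
        simp only [h2, Option.elim_some] at w3 t2 h1 ⊢
        have := hs (lv g)
        rcases H1 g h2 with h3 | ⟨-, h4 | ⟨h4, h5, h6, -⟩⟩ | h3
        · exact absurd h3.1 h1
        · linarith
        · have : th (r :: h) (some g) (S.pos ω (t + 1) i) = 0 := by simp [th, h5, h6]
          linarith
        · linarith
    have fin : ∀ E : Fin k → ℝ, (∀ i, wd (fun g => β * 2 ^ lv g.1) (S.lb lab2 h ω i)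
        (S.lb lab2 (r :: h) ω i) + th (r :: h) (S.lb lab (r :: h) ω i) (S.pos ω (t + 1) i) ≤
        th h (S.lb lab h ω i) (S.pos ω t i) + (7 * wd (fun g => β * 2 ^ lv g) (S.lb lab h ω i)
          (S.lb lab (r :: h) ω i) + 4 / ρ * S.mv t ω i + cut t ω i) + E i) →
        ∑ i, E i + 4 * ∑ j ∈ range J, s j * (L (r :: h) j).length ≤
          4 * ∑ j ∈ range J, s j * (L h j).length →
        ∑ i, wd (fun g => β * 2 ^ lv g.1) (S.lb lab2 h ω i) (S.lb lab2 (r :: h) ω i) +
          (∑ i, th (r :: h) (S.lb lab (r :: h) ω i) (S.pos ω (t + 1) i) +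
            4 * ∑ j ∈ range J, s j * (L (r :: h) j).length) ≤
        ∑ i, th h (S.lb lab h ω i) (S.pos ω t i) + 4 * ∑ j ∈ range J, s j * (L h j).length +
          (7 * ∑ i, wd (fun g => β * 2 ^ lv g) (S.lb lab h ω i) (S.lb lab (r :: h) ω i) +
            4 / ρ * ∑ i, S.mv t ω i + ∑ i, cut t ω i) := by
      intro E H1 H2
      have := sum_le_sum fun i (_ : i ∈ univ) => H1 i
      simp only [sum_add_distrib, ← mul_sum] at this
      linarith
    rw [hh']
    by_cases c1 : ∃ g0, lab (r :: h) r = some g0 ∧ ∀ c ∈ L h (lv g0), u (lv g0) < dist r c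
    swap
    · have e1 : ∀ j, L (r :: h) j = L h j := fun j =>
        if_neg (by rintro ⟨⟨g, h1, rfl⟩, h2⟩; exact c1 ⟨g, h1, h2⟩)
      refine fin (fun _ => 0) (fun i => part i 0 (fun g _ => Or.inr (Or.inl ⟨⟨[], by simp [e1]⟩,
        Or.inl le_rfl⟩)) fun _ => le_rfl) (by simp [e1])
    obtain ⟨g0, c1, c2⟩ := c1
    have e1 : ∀ j, j ≠ lv g0 → L (r :: h) j = L h j := fun j hj =>
      if_neg (by rintro ⟨⟨g, h1, rfl⟩, -⟩; exact hj (by rw [Option.some.inj (h1.symm.trans c1)]))
    have e2 : L (r :: h) (lv g0) = if (L h (lv g0)).length < 2 * k + 1 then L h (lv g0) ++ [r]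
        else [r] := if_pos ⟨⟨g0, c1, rfl⟩, c2⟩
    have e3 : ∑ j ∈ range J, s j * (L (r :: h) j).length = ∑ j ∈ range J, s j * (L h j).length +
        s (lv g0) * ((L (r :: h) (lv g0)).length - (L h (lv g0)).length) := by
      rw [← sum_erase_add _ _ (mem_range.2 (hJ g0)), ← sum_erase_add _ _ (mem_range.2 (hJ g0)),
        sum_congr rfl fun j hj => by rw [e1 j (ne_of_mem_erase hj)]]
      ring
    have s0 := hs (lv g0)
    by_cases c3 : (L h (lv g0)).length < 2 * k + 1
    · rw [if_pos c3] at e2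
      have e4 : ∀ j, ∃ M, L (r :: h) j = L h j ++ M := fun j => by
        by_cases h1 : j = lv g0
        exacts [⟨[r], h1 ▸ e2⟩, ⟨[], by simp [e1 j h1]⟩]
      refine fin (fun i => if i = S.ch ω t then -4 * s (lv g0) else 0) (fun i => part i _
        (fun g hg => Or.inr (Or.inl ⟨e4 _, ?_⟩)) fun hg => ?_) ?_
      · split_ifs with h1
        · subst h1
          rw [pos_self] at hg ⊢
          obtain rfl := Option.some.inj (hg.symm.trans c1)
          refine Or.inr ⟨le_rfl, le_antisymm (psi_mem (hu _) _ _).2 ?_, hcov _ c1, ?_⟩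
          · simpa using le_psi (u (lv g)) r (c := r) (L := L (r :: h) (lv g)) (by simp [e2])
          · rw [mv, pos_self]; exact psi_far (hu _) _ _ c2
        · exact Or.inl le_rfl
      · split_ifs with h1
        · subst h1
          rw [pos_self] at hg
          simp [← hr, c1] at hg
        · exact le_rfl
      · rw [e3, e2]; simp; linarith
    · rw [if_neg c3] at e2
      refine fin (fun i => 8 * s (lv g0)) (fun i => part i _ (fun g hg => ?_)
        fun _ => by positivity) ?_
      · by_cases h1 : lv g = lv g0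
        · by_cases h2 : lab h (S.pos ω t i) = some g
          exacts [Or.inl ⟨h2, by rw [h1]⟩, Or.inr (Or.inr ⟨h2, by positivity⟩)]
        · exact Or.inr (Or.inl ⟨⟨[], by simp [e1 _ h1]⟩, Or.inl (by positivity)⟩)
      · have : (2 * k + 1 : ℝ) ≤ (L h (lv g0)).length := by exact_mod_cast not_lt.1 c3
        rw [e3, e2]; simp; nlinarith
  rw [Ex_add, Ex_add, Ex_mul, Ex_mul] at key
  have : 4 * (1 + l) / ρ = 4 / ρ + 4 * l / ρ := by ring
  rw [this]
  unfold Vc OPT at *
  linarith

end Scen

end Vale.Agent.P304
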