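import Vale.Agent.P304.Layer

/-! A deterministic policy against a known finite distribution of request sequences. -/

namespace Vale.Agent.P304

open Finset Real

universe u

variable {X : Type u} [MetricSpace X] {k : ℕ}

lemma lazy_le (s : Fin k → X) (req : ℕ → X) (ch : ℕ → Fin k) (Q : ℕ → Fin k → X)
    (hQ : ∀ t, Q (t + 1) (ch t) = req t) (T : ℕ) :
    move s req ch T + ∑ i, dist (conf s req ch T i) (Q T i) ≤
      ∑ i, dist (s i) (Q 0 i) + ∑ t ∈ range T, ∑ i, dist (Q t i) (Q (t + 1) i) := by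
  induction T with
  | zero => simp [move, conf]
  | succ T ih =>
    have : dist (conf s req ch T (ch T)) (req T) + ∑ i, dist (conf s req ch (T + 1) i) (Q (T + 1) i) ≤
        ∑ i, (dist (conf s req ch T i) (Q T i) + dist (Q T i) (Q (T + 1) i)) := by
      rw [← sum_erase_add _ _ (mem_univ (ch T)), ← sum_erase_add _ _ (mem_univ (ch T))]
      have h1 : ∑ i ∈ univ.erase (ch T), dist (conf s req ch (T + 1) i) (Q (T + 1) i) ≤
          ∑ i ∈ univ.erase (ch T), (dist (conf s req ch T i) (Q T i) + dist (Q T i) (Q (T + 1) i)) :=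
        sum_le_sum fun i hi => by
          rw [conf, Function.update_of_ne (ne_of_mem_erase hi)]; exact dist_triangle _ _ _
      have h2 := dist_triangle (conf s req ch T (ch T)) (Q T (ch T)) (req T)
      simp only [conf, Function.update_self, hQ, dist_self] at h1 ⊢
      linarith
    rw [move, sum_range_succ, sum_range_succ, ← move]
    rw [sum_add_distrib] at this
    linarith

lemma move_eq (s : Fin k → X) (req : ℕ → X) (ch : ℕ → Fin k) (T : ℕ) : move s req ch T =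
    ∑ t ∈ range T, ∑ i, dist (conf s req ch t i) (conf s req ch (t + 1) i) := by
  refine sum_congr rfl fun t _ => ?_
  rw [sum_eq_single (ch t) (fun i _ h => by simp [conf, h]) (by simp)]
  simp [conf]

lemma move_init (s s' : Fin k → X) (req : ℕ → X) (ch : ℕ → Fin k) (T : ℕ) :
    move s req ch T ≤ ∑ i, dist (s i) (s' i) + move s' req ch T := by
  have := lazy_le s req ch (conf s' req ch) (fun t => by simp [conf]) T
  rw [← move_eq] at this
  exact le_trans (le_add_of_nonneg_right (sum_nonneg fun _ _ => dist_nonneg)) this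

open Scen

/-- the root layer -/
noncomputable def root (S : Scen X k) [Fintype X] (m : ℕ) {Θ : ℝ} (hΘ : 1 ≤ Θ) :
    Layer S m Θ (1 / 2) k where
  G := PUnit
  fin := inferInstance
  deq := inferInstance
  lab := fun _ _ => some ⟨⟩
  w := fun _ => 1024 * ∑ x, dist x S.x0
  a := fun _ => S.x0
  f := fun _ _ _ => some ⟨⟩
  P := fun _ _ _ => S.x0
  hw := fun _ => by positivity
  ha := fun _ x _ _ => by
    linarith [single_le_sum (f := fun x => dist x S.x0) (fun _ _ => dist_nonneg) (mem_univ x)]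
  h0 := fun _ _ => rfl
  mass := fun r h g H _ => by simp [cnt, lb, post_const H]
  bal := fun _ _ _ _ _ => by simp
  lo := fun h g H N => by
    have e : ∑ i ∈ range N, S.post h (S.few (fun _ _ => some PUnit.unit) g i h) =
        max 0 ((N : ℝ) - k) := by
      rw [← sum_few]
      refine sum_congr rfl fun i _ => ?_
      rw [← post_const H (ite _ _ _)]
      exact congrArg (S.post h) (funext fun ω => by simp [few, cnt, lb])
    have hm : (0 : ℝ) ≤ m := m.cast_nonneg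
    have e1 := le_max_left 0 ((N : ℝ) - k)
    have e2 := le_max_right 0 ((N : ℝ) - k)
    rw [e]
    simp only [cnt, filter_true, card_univ, Fintype.card_fin, sum_const, smul_eq_mul, Nat.cast_mul]
    refine ⟨mul_le_mul_of_nonneg_left (by nlinarith) hm,
      fun h1 => mul_le_mul_of_nonneg_left ?_ hm⟩
    have : (N : ℝ) < (k + 1 : ℕ) := by push_cast; linarith
    exact_mod_cast Nat.lt_succ_iff.1 (by exact_mod_cast this)
  up := fun h g H => by
    have : (0 : ℝ) ≤ m * k := by positivity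
    simp [cnt, lb, post_const H]; linarith
  fP := fun _ _ _ _ _ _ => by rw [dist_self]; positivity
  srv := fun _ _ _ h => by simp at h
  P0 := fun _ _ => rfl
  f0 := fun _ _ _ _ => rfl

lemma log_ge {k : ℕ} (hk : 2 ≤ k) : 0.69 ≤ log k :=
  le_trans (by linarith [log_two_gt_d9]) (log_le_log two_pos (by exact_mod_cast hk))

lemma depth {k : ℕ} (hk : 2 ≤ k) : ∃ D : ℕ, 1 ≤ D ∧ (D : ℝ) ≤ 9 * log k ∧ (3 / 4 : ℝ) ^ D * k < 1 := by
  refine ⟨3 * (Nat.log 2 k + 1), by omega, ?_, ?_⟩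
  · have h1 : ((2 ^ Nat.log 2 k : ℕ) : ℝ) ≤ k := Nat.cast_le.2 (Nat.pow_log_le_self 2 (by omega))
    have h2 := log_le_log (by positivity) h1
    have h3 : (1 : ℝ) ≤ Nat.log 2 k := by exact_mod_cast Nat.log_pos one_lt_two hk
    rw [Nat.cast_pow, log_pow, Nat.cast_ofNat] at h2
    push_cast
    nlinarith [log_two_gt_d9]
  · have h1 : (k : ℝ) < 2 ^ (Nat.log 2 k + 1) := by
      exact_mod_cast Nat.lt_pow_succ_log_self one_lt_two k
    refine (mul_lt_mul_of_pos_left h1 (by positivity)).trans_le ?_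
    rw [pow_mul, ← mul_pow]
    exact pow_le_one₀ (by norm_num) (by norm_num)

lemma gap {δ t : ℝ} (δ0 : 0 < δ) (δ1 : δ ≤ 1 / 4) (t0 : 1 ≤ t) :
    6 * δ ≤ 6 * (t * (1 + 4 * δ)) / (1 + δ) - 6 * t / (1 - δ) := by
  rw [div_sub_div _ _ (by linarith) (by linarith), le_div_iff₀ (by nlinarith)]
  nlinarith [mul_nonneg (sub_nonneg.2 t0) (mul_nonneg δ0.le (sub_nonneg.2 δ1)),
    mul_nonneg δ0.le (sub_nonneg.2 δ1), mul_pos δ0 (mul_pos δ0 δ0)]

lemma gap2 {k m δ ϑ e θ g : ℝ} (hk : 0 < k) (hm : 0 < m) (δ1 : δ ≤ 1 / 4) (ϑ0 : 0 < ϑ)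
    (h : 35 * k * ϑ = δ) (e0 : 0 < e) (hθ : θ ≤ 17) (h1 : 1 ≤ m * (δ * (e * ϑ))) (hg : 6 * δ ≤ g) :
    2 * k * (m * (3 * θ * (e * ϑ)) + 1) ≤ m * (g * (e / 2)) := by
  have p : 0 < m * (e * ϑ) := by positivity
  have a1 : m * (3 * θ * (e * ϑ)) + 1 ≤ 52 * (m * (e * ϑ)) := by nlinarith
  refine (mul_le_mul_of_nonneg_left a1 (by positivity)).trans (le_trans ?_
    (mul_le_mul_of_nonneg_left (mul_le_mul_of_nonneg_right hg (by positivity)) hm.le))
  rw [← h]
  nlinarith [mul_pos p hk]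

lemma params {k : ℕ} (hk : 2 ≤ k) : ∃ (D m : ℕ) (δ : ℝ) (θ η : ℕ → ℝ), 0 < m ∧
    (D : ℝ) ≤ 9 * log k ∧ (3 / 4 : ℝ) ^ D * k < 1 ∧ 0 < δ ∧ δ ≤ 1 / 4 ∧ θ 0 = 6 ∧ η 0 = 1 ∧
    ∀ l < D, 6 ≤ θ (l + 1) ∧ 0 < η (l + 1) ∧ 3 * θ (l + 1) * η (l + 1) ≤ 1 ∧
      1 ≤ m * (δ * η (l + 1)) ∧ 0 ≤ θ l / (1 - δ) ∧ 2 * k * (m * (3 * θ (l + 1) * η (l + 1)) + 1) ≤
        m * ((θ (l + 1) / (1 + δ) - θ l / (1 - δ)) * (η l / 2)) ∧
      θ l / (1 - δ) ≤ θ (l + 1) / (1 + δ) ∧
      (θ (l + 1) + 1) * (6 / δ * log (1 + 1 / η (l + 1))) ≤ 10 ^ 6 * log k ^ 3 := by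
  obtain ⟨D, D0, D1, D2⟩ := depth hk
  have x0 := log_ge hk
  set x := log k with hx
  have k2 : (2 : ℝ) ≤ k := by exact_mod_cast hk
  replace D0 : (1 : ℝ) ≤ D := by exact_mod_cast D0
  obtain ⟨δ, δ0, δ2⟩ : ∃ δ : ℝ, 0 < δ ∧ 4 * D * δ = 1 :=
    ⟨1 / (4 * D), by positivity, by field_simp⟩
  have δ1 : δ ≤ 1 / 4 := by nlinarith
  obtain ⟨ϑ, ϑ0, ϑ2⟩ : ∃ ϑ : ℝ, 0 < ϑ ∧ 35 * k * ϑ = δ :=
    ⟨δ / (35 * k), by positivity, by field_simp⟩
  have ϑ1 : ϑ ≤ 1 / 280 := by nlinarith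
  have m0 : 0 < ⌈1 / (δ * ϑ ^ D)⌉₊ := Nat.ceil_pos.2 (by positivity)
  have c2 : log (1 + 1 / ϑ ^ D) ≤ 120 * x ^ 2 := by
    have h1 : 1 ≤ 1 / ϑ ^ D := by
      rw [le_div_iff₀ (by positivity), one_mul]; exact pow_le_one₀ ϑ0.le (by linarith)
    have h2 : 1 / ϑ ≤ k ^ 13 := by
      have h3 : x ≤ k := (log_le_sub_one_of_pos (by linarith)).trans (by linarith)
      have h4 : (2 : ℝ) ^ 11 ≤ k ^ 11 := pow_le_pow_left₀ zero_le_two k2 11
      have h5 : 1 / ϑ = 140 * D * k := by rw [div_eq_iff ϑ0.ne', ← δ2, ← ϑ2]; ring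
      rw [h5, show (k : ℝ) ^ 13 = k ^ 11 * k * k by ring]
      exact mul_le_mul_of_nonneg_right (by nlinarith) (by linarith)
    have h3 : 1 + 1 / ϑ ^ D ≤ 2 * (k ^ 13) ^ D := by
      have := pow_le_pow_left₀ (by positivity) h2 D
      rw [one_div_pow] at this
      linarith
    refine (log_le_log (by positivity) h3).trans ?_
    rw [log_mul two_ne_zero (by positivity), log_pow, log_pow]
    push_cast
    nlinarith [log_two_lt_d9]
  refine ⟨D, _, δ, fun l => 6 * (1 + 4 * δ) ^ l, fun l => ϑ ^ l, m0, D1, D2, δ0, δ1, by simp,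
    by simp, fun l hl => ?_⟩
  have t0 : 1 ≤ (1 + 4 * δ) ^ l := one_le_pow₀ (by linarith)
  have t1 : 6 * (1 + 4 * δ) ^ (l + 1) ≤ 17 := by
    have a1 : (1 + 4 * δ) ^ (l + 1) ≤ exp (4 * δ) ^ D :=
      (pow_le_pow_right₀ (by linarith) hl).trans
        (pow_le_pow_left₀ (by linarith) (by linarith [add_one_le_exp (4 * δ)]) D)
    rw [← exp_nat_mul, show (D : ℝ) * (4 * δ) = 1 by linarith] at a1
    linarith [exp_one_lt_d9]
  have e0 : 0 < ϑ ^ l := by positivity
  have e1 : ϑ ^ l ≤ 1 := pow_le_one₀ ϑ0.le (by linarith)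
  have e2 : ϑ ^ D ≤ ϑ ^ (l + 1) := pow_le_pow_of_le_one ϑ0.le (by linarith) hl
  have e3 : 1 ≤ ⌈1 / (δ * ϑ ^ D)⌉₊ * (δ * ϑ ^ (l + 1)) := by
    have := (div_le_iff₀ (by positivity)).1 (Nat.le_ceil (1 / (δ * ϑ ^ D)))
    exact this.trans (by gcongr)
  have e4 := gap δ0 δ1 t0
  have e5 : 0 < ϑ ^ (l + 1) := by positivity
  have e6 : ϑ ^ (l + 1) ≤ 1 / 280 := by rw [pow_succ]; nlinarith
  rw [← pow_succ] at e4
  refine ⟨by linarith [one_le_pow₀ (n := l + 1) (by linarith : 1 ≤ 1 + 4 * δ)], e5,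
    by nlinarith, e3, div_nonneg (by positivity) (by linarith),
    gap2 (by linarith) (by exact_mod_cast m0) δ1 ϑ0 ϑ2 e0 t1 e3 e4, by linarith, ?_⟩
  have a1 : log (1 + 1 / ϑ ^ (l + 1)) ≤ 120 * x ^ 2 := le_trans (by gcongr) c2
  have a0 : 0 ≤ log (1 + 1 / ϑ ^ (l + 1)) := log_nonneg (by linarith [one_div_pos.2 e5])
  have a2 : 6 / δ ≤ 216 * x := by rw [div_le_iff₀ δ0]; nlinarith
  refine (mul_le_mul (add_le_add t1 le_rfl) (mul_le_mul a2 a1 a0 (by linarith)) (by positivity)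
    (by norm_num)).trans ?_
  have : 0 ≤ x ^ 3 := by positivity
  linarith

theorem layers (S : Scen X k) [Fintype X] (hne : S.Re []) (hk : 2 ≤ k) :
    ∃ (m : ℕ) (_ : NeZero m) (Θ ζ γ : ℝ) (L : Layer S m Θ ζ γ), γ < 1 ∧
      L.Mv ≤ m * (10 ^ 14 * log k ^ 5 * S.OPT) := by
  classical
  obtain ⟨β, hβ, d1⟩ : ∃ β > 0, ∀ x y : X, x ≠ y → 2 * β ≤ dist x y := by
    rcases (univ.filter fun p : X × X => p.1 ≠ p.2).eq_empty_or_nonempty with h | h
    · exact ⟨1, one_pos, fun x y hxy => absurd hxy (filter_eq_empty_iff.1 h (mem_univ (x, y)))⟩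
    · obtain ⟨p, h1, h2⟩ := exists_min_image _ (fun p : X × X => dist p.1 p.2) h
      exact ⟨dist p.1 p.2 / 2, half_pos (dist_pos.2 (mem_filter.1 h1).2), fun x y hxy => by
        linarith [h2 (x, y) (by simpa using hxy)]⟩
  obtain ⟨J, d2⟩ : ∃ J : ℕ, ∀ x y : X, dist x y < β * 2 ^ J := by
    obtain ⟨J, hJ⟩ := pow_unbounded_of_one_lt ((∑ p : X × X, dist p.1 p.2) / β) one_lt_two
    rw [div_lt_iff₀' hβ] at hJ
    exact ⟨J, fun x y => (single_le_sum (f := fun p : X × X => dist p.1 p.2)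
      (fun _ _ => dist_nonneg) (mem_univ (x, y))).trans_lt hJ⟩
  obtain ⟨D, m, δ, θ, η, m0, D1, D2, δ0, δ1, θ0, η0, hp⟩ := params hk
  haveI : NeZero m := ⟨m0.ne'⟩
  have x0 := log_ge hk
  have c1 : 252 + 8192 * (1 + log (2 * k + 2)) ≤ 40000 * log k := by
    have k2 : (2 : ℝ) ≤ k := by exact_mod_cast hk
    have := log_le_log (by positivity)
      (show 2 * (k : ℝ) + 2 ≤ k ^ 3 by nlinarith [mul_self_nonneg (k : ℝ)])
    rw [log_pow] at this
    push_cast at this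
    linarith
  generalize log k = x at *
  have o := OPT_nonneg (S := S)
  have key : ∀ l ≤ D, ∃ L : Layer S m (θ l / (1 - δ)) (η l / 2) ((3 / 4) ^ l * k),
      L.V ≤ 80000 * x * S.OPT ∧ L.Xc ≤ m * (10 ^ 12 * x ^ 4 * S.OPT) ∧
      L.Mv ≤ l * (m * (10 ^ 13 * x ^ 4 * S.OPT)) := by
    intro l
    induction l with
    | zero =>
      intro _
      rw [θ0, η0, pow_zero, one_mul]
      refine ⟨root S m (by rw [le_div_iff₀ (by linarith)]; linarith), ?_, ?_, ?_⟩
      · exact le_trans (Ex_mono (G := fun _ _ => 0) fun _ _ => sum_nonpos fun _ _ =>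
          (if_pos rfl).le) (by simp [Ex, Ev]; positivity)
      · exact le_trans (Ex_mono (G := fun _ _ => 0) fun _ _ => sum_nonpos fun _ _ =>
          sum_nonpos fun _ _ => (if_pos rfl).le) (by simp [Ex, Ev]; positivity)
      · exact le_trans (Ex_mono (G := fun _ _ => 0) fun _ _ => sum_nonpos fun _ _ =>
          sum_nonpos fun _ _ => (dist_self _).le) (by simp [Ex, Ev])
    | succ l ih =>
      intro hl
      obtain ⟨L, h1, h2, h3⟩ := ih (by omega)
      obtain ⟨p1, p2, p3, p4, p5, p6, p7, p8⟩ := hp l hl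
      obtain ⟨L', g1, g2, g3⟩ := L.step hne β hβ J d1 d2 p1 p2 p3 δ0 δ1 p4 p5 p6 p7
      rw [pow_succ (3 / 4 : ℝ), mul_comm _ (3 / 4 : ℝ), mul_assoc]
      have v1 : L'.V ≤ 80000 * x * S.OPT := by
        linarith [mul_le_mul_of_nonneg_right c1 o]
      have w : 0 ≤ m * (x ^ 4 * S.OPT) := by positivity
      refine ⟨L', v1, g2.trans ?_, g3.trans ?_⟩
      · have v0 : 0 ≤ L'.V := Ex_nonneg fun _ _ => sum_nonneg fun _ _ => wd_nonneg L'.hw _ _
        have := mul_le_mul (mul_le_mul_of_nonneg_left p8 m.cast_nonneg) v1 v0 (by positivity)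
        linarith
      · have a1 : S.OPT + L.V ≤ 10 ^ 6 * x ^ 4 * S.OPT := by
          have : 1 + 80000 * x ≤ 10 ^ 6 * x ^ 4 := by
            have : 0.3 ≤ x ^ 3 := le_trans (by norm_num) (pow_le_pow_left₀ (by norm_num) x0 3)
            nlinarith
          linarith [mul_le_mul_of_nonneg_right this o]
        have a2 := mul_le_mul_of_nonneg_left a1 (by positivity : (0 : ℝ) ≤ 6 * m)
        push_cast
        linarith
  obtain ⟨L, -, -, h⟩ := key D le_rfl
  refine ⟨m, inferInstance, _, _, _, L, D2, h.trans ?_⟩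
  have := mul_le_mul_of_nonneg_right D1 (show 0 ≤ m * (10 ^ 13 * x ^ 4 * S.OPT) by positivity)
  have : 0 ≤ m * (x ^ 5 * S.OPT) := by positivity
  linarith

theorem core (S : Scen X k) [Fintype X] [Nonempty S.Ω] (hk : 2 ≤ k) : ∃ A : List X → Fin k,
    S.Ev (fun ω => move (fun _ => S.x0) (S.req ω) (choices A (S.req ω)) S.T) ≤
      10 ^ 14 * log k ^ 5 * S.Ev fun ω => move (fun _ => S.x0) (S.req ω) (S.ch ω) S.T := by
  classical
  obtain ⟨m, _, Θ, ζ, γ, L, hγ, h⟩ := layers S (re_hist (Classical.arbitrary _) 0) hk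
  have e : S.Ev (fun ω => move (fun _ => S.x0) (S.req ω) (S.ch ω) S.T) = S.OPT := by
    simp only [move_eq]; exact Ev_sum _ _
  rw [Layer.Mv, Ex_sum] at h
  obtain ⟨b, -, hb⟩ := exists_le_of_sum_le (univ_nonempty (α := Fin m))
    (g := fun _ => 10 ^ 14 * log k ^ 5 * S.OPT) (h.trans_eq (by simp))
  let pol : List X → Fin k := fun h =>
    if H : ∃ i, L.P h b i = h.headD S.x0 then H.choose else ⟨0, by omega⟩
  have hr : ∀ ω t, ((List.range t).map (S.req ω)).reverse = S.hist ω t := fun ω t => by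
    induction t with
    | zero => rfl
    | succ t ih => simp [List.range_succ, hist, ← ih]
  refine ⟨fun l => pol l.reverse, le_trans ?_ (e ▸ hb)⟩
  rw [Ex, ← Ev_sum]
  refine Ev_mono fun ω => ?_
  have := lazy_le (fun _ => S.x0) (S.req ω) (choices (fun l => pol l.reverse) (S.req ω))
    (fun t => L.P (S.hist ω t) b) (fun t => ?_) S.T
  · simp only [hist, L.P0, dist_self, sum_const_zero, zero_add] at this
    exact le_trans (le_add_of_nonneg_right (sum_nonneg fun _ _ => dist_nonneg)) this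
  · have H := re_hist ω (t + 1)
    have h1 : L.lab (S.hist ω (t + 1)) (S.req ω t) = none :=
      Option.eq_none_iff_forall_ne_some.2 fun g h1 => by
        have h2 := L.mass _ _ g H h1
        have h3 := post_mono H (f := fun _ => 1)
          (g := fun ω' => cnt (S.lb L.lab (S.hist ω (t + 1)) ω') g) fun ω' hω => by
            rw [hist_length] at hω
            refine Nat.one_le_cast.2 (card_pos.2 ⟨S.ch ω' t, ?_⟩)
            rw [mem_filter_univ, lb, hist_length, pos_self, (List.cons.inj hω).1, h1]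
        rw [post_const H] at h3
        exact absurd (h3.trans h2) (not_le.2 hγ)
    obtain ⟨i, -, hi⟩ := L.srv _ _ H h1 b
    have h2 : ∃ i, L.P (S.hist ω (t + 1)) b i = (S.hist ω (t + 1)).headD S.x0 := ⟨i, hi⟩
    simp only [choices, hr, pol, dif_pos h2]
    exact h2.choose_spec

end Vale.Agent.P304
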