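import Mathlib

/-! The k-server problem against an oblivious adversary. -/

namespace Vale.Agent.P304

open MeasureTheory

variable {X : Type*} {k : ℕ}

/-- Positions of the `k` labeled servers after `t` requests, starting from `s`, when request
number `t` (counted from `0`) is `req t` and it is served by moving server `ch t` to it. -/
def conf (s : Fin k → X) (req : ℕ → X) (ch : ℕ → Fin k) : ℕ → Fin k → X
  | 0 => s
  | t + 1 => Function.update (conf s req ch t) (ch t) (req t)

/-- Total distance moved while serving the first `T` requests. -/
def move [MetricSpace X] (s : Fin k → X) (req : ℕ → X) (ch : ℕ → Fin k) (T : ℕ) : ℝ :=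
  ∑ t ∈ Finset.range T, dist (conf s req ch t (ch t)) (req t)

/-- Optimal offline cost of serving the first `T` requests. -/
noncomputable def opt [MetricSpace X] (s : Fin k → X) (req : ℕ → X) (T : ℕ) : ℝ :=
  ⨅ ch : ℕ → Fin k, move s req ch T

/-- The choices of a deterministic online policy `A`: the server sent to request number `t`
is `A [req 0, …, req t]`. -/
def choices (A : List X → Fin k) (req : ℕ → X) (t : ℕ) : Fin k :=
  A ((List.range (t + 1)).map req)

/-- A randomized policy, a probability distribution `μ` over deterministic online policies,
is `c`-competitive from the initial positions `s` against an oblivious adversary. -/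
def Competitive [MetricSpace X] (s : Fin k → X) (μ : Measure (List X → Fin k)) (c : ℝ) : Prop :=
  ∃ B : ℝ, ∀ (req : ℕ → X) (T : ℕ), Integrable (fun A => move s req (choices A req) T) μ ∧
    ∫ A, move s req (choices A req) T ∂μ ≤ c * opt s req T + B

end Vale.Agent.P304
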