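import Vale.Agent.P304.Scen

/-! Lazy medians and random shells. -/

namespace Vale.Agent.P304

open Finset Real

universe u

namespace Scen

variable {X : Type u} [MetricSpace X] {k : ℕ} (S : Scen X k) {G : Type u} [DecidableEq G]

/-- movement of one offline server -/
noncomputable def mv (t : ℕ) (ω : S.Ω) (i : Fin k) : ℝ := dist (S.pos ω t i) (S.pos ω (t + 1) i)

/-- expected offline cost -/
noncomputable def OPT : ℝ := S.Ex fun t ω => ∑ i, S.mv t ω i

/-- labels of the offline servers -/
def lb (lab : List X → X → Option G) (h : List X) (ω : S.Ω) (i : Fin k) : Option G :=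
  lab h (S.pos ω h.length i)

/-- expected cost of label changes -/
noncomputable def Vc (lab : List X → X → Option G) (w : G → ℝ) : ℝ :=
  S.Ex fun t ω => ∑ i, wd w (S.lb lab (S.hist ω t) ω i) (S.lb lab (S.hist ω (t + 1)) ω i)

/-- expected drift of the centers -/
noncomputable def Dr (lab : List X → X → Option G) (c : List X → G → X) : ℝ :=
  S.Ex fun t ω => ∑ i, (S.lb lab (S.hist ω (t + 1)) ω i).elim 0
    fun g => dist (c (S.hist ω t) g) (c (S.hist ω (t + 1)) g)

open Classical in
/-- number of offline servers with a given label near a point -/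
noncomputable def near (lab : List X → X → Option G) (h : List X) (g : G) (r : X) (ρ : ℝ)
    (ω : S.Ω) : ℝ :=
  ∑ i, if S.lb lab h ω i = some g ∧ dist (S.pos ω h.length i) r ≤ ρ then 1 else 0

open Classical in
/-- lazy medians -/
noncomputable def ctr (lab : List X → X → Option G) (a : G → X) : List X → G → X
  | [] => a
  | r :: h => fun g => if lab (r :: h) r = some g ∧
      3 * S.post (r :: h) (fun ω => cnt (S.lb lab (r :: h) ω) g) <
        4 * S.post (r :: h) (S.near lab (r :: h) g r (dist r (ctr lab a h g) / 16))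
      then r else ctr lab a h g

variable {S}

omit [MetricSpace X] [DecidableEq G] in
lemma lb_hist (lab : List X → X → Option G) (ω : S.Ω) (t : ℕ) (i : Fin k) :
    S.lb lab (S.hist ω t) ω i = lab (S.hist ω t) (S.pos ω t i) := by rw [lb, hist_length]

lemma OPT_nonneg : 0 ≤ S.OPT := Ex_nonneg fun _ _ => sum_nonneg fun _ _ => dist_nonneg

theorem centers [Fintype G] (lab : List X → X → Option G) (w : G → ℝ) (hw : ∀ g, 0 ≤ w g)
    (a : G → X) (ε : ℝ) (hε : 0 ≤ ε) (ha : ∀ h x g, lab h x = some g → dist x (a g) ≤ ε * w g)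
    (h0 : ∀ g, lab [] S.x0 = some g → a g = S.x0) :
    ∃ c : List X → G → X, c [] = a ∧ (∀ h g, dist (c h g) (a g) ≤ ε * w g) ∧
      S.Dr lab c ≤ 3 * (S.OPT + 2 * ε * S.Vc lab w) ∧
      ∀ r h g, lab (r :: h) r = some g → c (r :: h) g ≠ r →
        4 * S.post (r :: h) (S.near lab (r :: h) g r (dist r (c (r :: h) g) / 16)) ≤
          3 * S.post (r :: h) (fun ω => cnt (S.lb lab (r :: h) ω) g) := by
  classical
  set c := S.ctr lab a with hc
  have h1 : ∀ h g, dist (c h g) (a g) ≤ ε * w g := by
    intro h g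
    induction h with
    | nil => simpa [hc, ctr] using mul_nonneg hε (hw g)
    | cons r h ih =>
      simp only [hc, ctr]
      split_ifs with h2
      exacts [ha _ _ _ h2.1, ih]
  refine ⟨c, rfl, h1, ?_, fun r h g h2 h3 => ?_⟩
  swap
  · simp only [hc, ctr] at h3 ⊢
    split_ifs at h3 ⊢ with h4
    · exact absurd rfl h3
    · exact not_lt.1 fun h5 => h4 ⟨h2, h5⟩
  have key : S.Ex (fun t ω => 13 / 32 * ∑ i, (S.lb lab (S.hist ω (t + 1)) ω i).elim 0
      fun g => dist (c (S.hist ω t) g) (c (S.hist ω (t + 1)) g)) ≤ S.Ex fun t ω => ∑ i, S.mv t ω i +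
        2 * ε * ∑ i, wd w (S.lb lab (S.hist ω t) ω i) (S.lb lab (S.hist ω (t + 1)) ω i) := by
    refine Ex_pot (Φ := fun t ω => ∑ i, (S.lb lab (S.hist ω t) ω i).elim 0
      fun g => dist (S.pos ω t i) (c (S.hist ω t) g)) (fun t => ?_) fun ω => ?_
    swap
    · refine le_trans (le_of_eq (sum_eq_zero fun i _ => ?_)) (sum_nonneg fun i _ => ?_)
      · rcases h2 : S.lb lab (S.hist ω 0) ω i with _ | g
        · rfl
        · exact dist_eq_zero.2 (h0 g h2).symm
      · cases S.lb lab (S.hist ω S.T) ω i; exacts [le_rfl, dist_nonneg]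
    let K : List X → S.Ω → ℝ := fun h ω => ∑ g, dist (c h.tail g) (c h g) *
      (45 / 32 * cnt (S.lb lab h ω) g + -(15 / 8) *
        S.near lab h g (c h g) (dist (c h g) (c h.tail g) / 16) ω)
    have k1 : S.Ev (fun ω => K (S.hist ω (t + 1)) ω) ≤ 0 := by
      rw [Ev_fib (t + 1) K]
      refine (Ev_mono (g := fun _ => 0) fun ω => ?_).trans (by simp [Ev])
      simp only [K, post_sum, post_mul, post_add]
      refine sum_nonpos fun g _ => ?_
      simp only [hist, List.tail_cons]
      by_cases h2 : c (S.req ω t :: S.hist ω t) g = c (S.hist ω t) g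
      · simp [h2]
      · refine mul_nonpos_of_nonneg_of_nonpos dist_nonneg ?_
        simp only [hc, ctr] at h2 ⊢
        split_ifs at h2 ⊢ with h3
        · linarith [h3.2]
        · exact absurd rfl h2
    rw [← Ev_add, ← Ev_add]
    refine le_trans (Ev_mono fun ω => ?_) ((Ev_add _ _).trans_le (add_le_of_nonpos_right k1))
    simp only [K, cnt_eq, near, mul_sum, ← sum_add_distrib, hist_length]
    rw [sum_comm, ← sum_add_distrib]
    refine sum_le_sum fun i _ => ?_
    change _ ≤ _ + ∑ g, dist (c (S.hist ω t) g) _ * (_ + _ * if _ ∧ _ ≤ dist _ (c (S.hist ω t) g) / 16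
      then 1 else 0)
    have m0 : 0 ≤ S.mv t ω i := dist_nonneg
    rcases h2 : S.lb lab (S.hist ω (t + 1)) ω i with _ | g
    · have := mul_nonneg hε (wd_nonneg hw (S.lb lab (S.hist ω t) ω i) none)
      have h9 : 0 ≤ ((S.lb lab (S.hist ω t) ω i).elim 0
          fun g => dist (S.pos ω t i) (c (S.hist ω t) g)) := by
        cases S.lb lab (S.hist ω t) ω i; exacts [le_rfl, dist_nonneg]
      simp only [Option.elim_none, reduceCtorEq, false_and, if_false, mul_zero, add_zero,
        sum_const_zero]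
      linarith
    · rw [sum_eq_single g (fun g' _ h => by simp [h.symm]) (by simp)]
      have h3 : dist (S.pos ω (t + 1) i) (c (S.hist ω t) g) ≤ ((S.lb lab (S.hist ω t) ω i).elim 0
          fun g => dist (S.pos ω t i) (c (S.hist ω t) g)) +
            (S.mv t ω i + 2 * ε * wd w (S.lb lab (S.hist ω t) ω i) (some g)) := by
        by_cases h4 : S.lb lab (S.hist ω t) ω i = some g
        · have := dist_triangle_left (S.pos ω (t + 1) i) (c (S.hist ω t) g) (S.pos ω t i)
          simp only [h4, wd, if_true, Option.elim, mv]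
          linarith
        · have h5 := dist_triangle_right (S.pos ω (t + 1) i) (c (S.hist ω t) g) (a g)
          have h6 := ha _ _ _ ((lb_hist lab ω (t + 1) i).symm.trans h2)
          have h7 := h1 (S.hist ω t) g
          have h8 := mul_nonneg hε (ow_nonneg hw (S.lb lab (S.hist ω t) ω i))
          have h9 : 0 ≤ ((S.lb lab (S.hist ω t) ω i).elim 0
              fun g => dist (S.pos ω t i) (c (S.hist ω t) g)) := by
            cases S.lb lab (S.hist ω t) ω i; exacts [le_rfl, dist_nonneg]
          rw [wd, if_neg h4]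
          change _ ≤ _ + (_ + 2 * ε * (_ + w g))
          linarith
      have h5 := dist_triangle (S.pos ω (t + 1) i) (c (S.hist ω t) g) (c (S.hist ω (t + 1)) g)
      have h6 := dist_triangle_right (c (S.hist ω (t + 1)) g) (c (S.hist ω t) g)
        (S.pos ω (t + 1) i)
      rw [dist_comm (c (S.hist ω (t + 1)) g) (c (S.hist ω t) g)] at h6 ⊢
      rw [dist_comm _ (S.pos ω (t + 1) i), dist_comm _ (S.pos ω (t + 1) i)] at h6
      simp only [Option.elim, true_and, if_true] at h3 ⊢
      split_ifs <;> linarith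
  rw [Ex_mul, Ex_add, Ex_mul] at key
  have h2 : 0 ≤ S.Dr lab c := Ex_nonneg fun t ω => sum_nonneg fun i _ => by
    cases S.lb lab (S.hist ω (t + 1)) ω i; exacts [le_rfl, dist_nonneg]
  unfold Dr OPT Vc at *
  linarith

omit [MetricSpace X] in
lemma avg_Ex (F : ℕ → S.Ω → ℝ → ℝ) (m : ℕ → S.Ω → ℝ) (h : ∀ t ω, AvgLe (F t ω) (m t ω)) :
    AvgLe (fun V => S.Ex fun t ω => F t ω V) (S.Ex m) :=
  avg_sum _ _ _ fun t => avg_sum _ _ _ fun ω => (h t ω).mul (S.hq ω).le

theorem shells (lab : List X → X → Option G) (w : G → ℝ) (hw : ∀ g, 0 ≤ w g)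
    (c : List X → G → X) (ε : ℝ) (hc : ∀ h x g, lab h x = some g → dist x (c h g) ≤ ε * w g)
    (β : ℝ) (hβ : 0 < β) (J : ℕ) (h1 : ∀ x y : X, x ≠ y → 2 * β ≤ dist x y)
    (h2 : ∀ x y : X, dist x y < β * 2 ^ J) :
    ∃ lab1 : List X → X → Option (G × Fin J),
      (∀ h x g, lab1 h x = some g → lab h x = some g.1 ∧ β * 2 ^ (g.2 : ℕ) ≤ dist x (c h g.1) ∧
        dist x (c h g.1) ≤ 4 * (β * 2 ^ (g.2 : ℕ))) ∧
      (∀ h x g, lab1 h x = none → lab h x = some g → x = c h g) ∧
      S.Vc lab1 (fun g => β * 2 ^ (g.2 : ℕ)) ≤ ε * S.Vc lab w + 9 * (S.OPT + S.Dr lab c) := by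
  have hd : ∀ x y : X, dist x y = 0 ∨ 2 * β ≤ dist x y := fun x y => by
    by_cases h : x = y
    exacts [Or.inl (dist_eq_zero.2 h), Or.inr (h1 x y h)]
  let φ : G → ℕ → Option (G × Fin J) := fun g j => if hj : j < J then some (g, ⟨j, hj⟩) else none
  let L : ℝ → List X → X → Option (G × Fin J) := fun V h x =>
    (lab h x).bind fun g => (shell β V (dist x (c h g))).bind (φ g)
  have hφ : ∀ g (o : Option ℕ), (o.bind (φ g)).elim 0 (fun g => β * 2 ^ (g.2 : ℕ)) ≤
      o.elim 0 fun j => β * 2 ^ j := by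
    rintro g (_ | j)
    · exact le_rfl
    · simp only [φ, Option.bind_some]
      split_ifs
      exacts [le_rfl, by simp only [Option.elim]; positivity]
  have hL : ∀ V ∈ Set.Ico (0 : ℝ) 1, ∀ h x, (L V h x).elim 0 (fun g => β * 2 ^ (g.2 : ℕ)) ≤
      ε * (lab h x).elim 0 w := by
    intro V hV h x
    rcases h3 : lab h x with _ | g
    · simp [L, h3]
    · simp only [L, h3, Option.bind_some]
      exact (hφ _ _).trans ((shell_le hβ hV (hd _ _)).trans (hc _ _ _ h3))
  obtain ⟨V, hV, h3⟩ := (avg_Ex (S := S) (fun t ω V => ∑ i, wd (fun g => β * 2 ^ (g.2 : ℕ))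
    (S.lb (L V) (S.hist ω t) ω i) (S.lb (L V) (S.hist ω (t + 1)) ω i)) _ fun t ω =>
    avg_sum univ _ (fun i => ε * wd w (S.lb lab (S.hist ω t) ω i) (S.lb lab (S.hist ω (t + 1)) ω i) +
      9 * (S.mv t ω i + (S.lb lab (S.hist ω (t + 1)) ω i).elim 0
        fun g => dist (c (S.hist ω t) g) (c (S.hist ω (t + 1)) g))) fun i => by
      simp only [lb_hist]
      have m0 : 0 ≤ S.mv t ω i := dist_nonneg
      by_cases h4 : lab (S.hist ω t) (S.pos ω t i) = lab (S.hist ω (t + 1)) (S.pos ω (t + 1) i)
      · rw [wd, if_pos h4]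
        rcases h5 : lab (S.hist ω (t + 1)) (S.pos ω (t + 1) i) with _ | g
        · refine (avg_const 0).mono (fun V _ => ?_) (by simpa using m0)
          simp [L, h4, h5, wd]
        · refine (avg_shell hβ (hd (S.pos ω t i) (c (S.hist ω t) g))
            (hd (S.pos ω (t + 1) i) (c (S.hist ω (t + 1)) g))).mono (fun V _ => ?_) ?_
          · simp only [L, h4, h5, Option.bind_some, wd]
            split_ifs with h6 h7 h7
            · exact le_rfl
            · exact add_nonneg (ow_nonneg (fun _ => by positivity) _)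
                (ow_nonneg (fun _ => by positivity) _)
            · exact absurd (by rw [h7]) h6
            · exact add_le_add (hφ _ _) (hφ _ _)
          · have := dist_dist_dist_le (S.pos ω t i) (c (S.hist ω t) g) (S.pos ω (t + 1) i)
              (c (S.hist ω (t + 1)) g)
            rw [Real.dist_eq] at this
            simp only [Option.elim, mv]
            linarith
      · refine (avg_const _).mono (fun V hV => ?_) le_rfl
        have h5 : 0 ≤ (lab (S.hist ω (t + 1)) (S.pos ω (t + 1) i)).elim 0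
            fun g => dist (c (S.hist ω t) g) (c (S.hist ω (t + 1)) g) := by
          cases lab (S.hist ω (t + 1)) (S.pos ω (t + 1) i); exacts [le_rfl, dist_nonneg]
        refine (wd_le (fun _ => by positivity) _ _).trans ((add_le_add (hL V hV _ _)
          (hL V hV _ _)).trans ?_)
        rw [wd, if_neg h4]
        linarith).exists
  have hs : ∀ x y : X, x ≠ y → shell β V (dist x y) = some (lev β V (dist x y)) := fun x y h =>
    if_neg (dist_ne_zero.2 h)
  refine ⟨L V, fun h x g h4 => ?_, fun h x g h4 h5 => ?_, h3.trans (le_of_eq ?_)⟩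
  · simp only [L, Option.bind_eq_some_iff, φ] at h4
    obtain ⟨g', h5, j, h6, h7⟩ := h4
    split_ifs at h7 with h8
    obtain rfl := Option.some.inj h7
    have h9 : x ≠ c h g' := by rintro h9; simp [shell, ← h9] at h6
    rw [hs _ _ h9] at h6
    obtain rfl := Option.some.inj h6
    exact ⟨h5, lev_spec hβ hV (h1 _ _ h9)⟩
  · by_contra h6
    have h7 := (lev_spec hβ hV (h1 _ _ h6)).1.trans_lt (h2 _ _)
    have h8 : lev β V (dist x (c h g)) < J :=
      (pow_lt_pow_iff_right₀ one_lt_two).1 (lt_of_mul_lt_mul_left h7 hβ.le)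
    simp [L, h5, hs _ _ h6, φ, h8] at h4
  · simp only [sum_add_distrib, ← mul_sum, Ex_add, Ex_mul]
    rfl

end Scen

end Vale.Agent.P304
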