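import Vale.Agent.P304.Round

/-! One time step of the rounding of an allocation among the children of all groups. -/

namespace Vale.Agent.P304

open Finset

variable {ι K G C : Type*} [Fintype ι] [DecidableEq ι] [Nonempty ι] [Fintype K] [DecidableEq K]
  [Fintype C] [DecidableEq C] [Fintype G] [DecidableEq G]

/-- valid refinements of server labels -/
def Ref (par : C → G) (lv : C → ℕ) (p : ι → K → Option G) (f : ι → K → Option C) : Prop :=
  (∀ a i c, f a i = some c → p a i = some (par c)) ∧ ∀ g, Val lv (fun a => (cnt (p a) g : ℤ))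
    fun c => if par c = g then fun a => (cnt (f a) c : ℤ) else 0

theorem round_step (par : C → G) (lv : C → ℕ) {β σ : ℝ} (hβ : 0 < β) (hσ : 0 ≤ σ) (w : G → ℝ)
    (hw : ∀ g, 0 ≤ w g) (p p' : ι → K → Option G) (f : ι → K → Option C) (A : C → ℕ)
    (hf : Ref par lv p f) (hB : ∀ g, Bal fun a => (cnt (p' a) g : ℤ))
    (hA : ∀ g, ∑ c, (if par c = g then A c else 0) ≤ ∑ a, cnt (p' a) g)
    (hl : ∀ c, 0 < ∑ a, cnt (f a) c ∨ 0 < A c → β * 2 ^ lv c ≤ σ * w (par c)) :
    ∃ f' : ι → K → Option C, Ref par lv p' f' ∧ (∀ c, ∑ a, cnt (f' a) c = A c) ∧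
      ∑ a, ∑ i, wd (fun c => β * 2 ^ lv c) (f a i) (f' a i) ≤
        8 * σ * ∑ a, ∑ i, wd w (p a i) (p' a i) +
        6 * ∑ c, β * 2 ^ lv c * |(A c : ℝ) - (∑ a, cnt (f a) c : ℕ)| := by
  have ex : ∀ g, ∃ n : ℕ, σ * w g < β * 2 ^ n := fun g => by
    obtain ⟨n, hn⟩ := pow_unbounded_of_one_lt (σ * w g / β) one_lt_two
    exact ⟨n, by rwa [div_lt_iff₀' hβ] at hn⟩
  have n1 : ∀ g, β * (2 ^ Nat.find (ex g) - 1) ≤ 2 * σ * w g := fun g => by
    have := mul_nonneg hσ (hw g)
    rcases h : Nat.find (ex g) with _ | n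
    · simp; linarith
    · have := Nat.find_min (ex g) (show n < Nat.find (ex g) by omega)
      rw [pow_succ]; linarith
  have n2 : ∀ c, Nat.find (ex (par c)) ≤ lv c → ∑ a, cnt (f a) c = 0 ∧ A c = 0 := fun c hc => by
    by_contra h
    have h1 := hl c (by omega)
    have h2 := Nat.find_spec (ex (par c))
    have h3 : β * 2 ^ Nat.find (ex (par c)) ≤ β * 2 ^ lv c :=
      mul_le_mul_of_nonneg_left (pow_le_pow_right₀ one_le_two hc) hβ.le
    linarith
  choose F k1 k2 k3 using fun g => chain lv (Nat.find (ex g)) (fun a => (cnt (p a) g : ℤ))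
    (fun a => (cnt (p' a) g : ℤ)) _ (fun c => if par c = g then A c else 0) (hf.2 g) (hB g)
    fun c hc => by
      split_ifs with h
      · subst h
        obtain ⟨h1, h2⟩ := n2 c hc
        exact ⟨funext fun a => by simpa using sum_eq_zero_iff.1 h1 a (mem_univ _), by simp [h2]⟩
      · exact ⟨rfl, rfl⟩
  have f0 : ∀ g c, par c ≠ g → F g c = 0 := fun g c h => ((k1 g).1 c).zero (by simp [k2, h])
  have f1 : ∀ g c a, 0 ≤ F g c a := fun g c =>
    ((k1 g).1 c).ge 0 (by rw [k2]; split_ifs <;> simp)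
  have f2 : ∀ g, F g = fun c => if par c = g then fun a => ((F (par c) c a).toNat : ℤ) else 0 := by
    intro g
    funext c
    split_ifs with h
    · subst h; funext a; rw [Int.toNat_of_nonneg (f1 _ _ _)]
    · exact f0 g c h
  choose f' m1 m2 m3 using fun a => relabel (w := fun c => β * 2 ^ lv c) (fun _ => by positivity)
    par (p a) (p' a) (fun c => (F (par c) c a).toNat) (fun g => by
      have := ((k1 g).2 0).ge 0 (by
        have := hA g
        simp only [Nat.zero_le, if_true, Pi.sub_apply, sum_sub_distrib, Finset.sum_apply]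
        rw [sum_comm]
        simp only [k2, mul_zero, sub_nonneg]
        exact_mod_cast this) a
      rw [f2 g] at this
      simp only [Nat.zero_le, if_true, Pi.sub_apply, Finset.sum_apply, sub_nonneg,
        ite_apply, Pi.zero_apply] at this
      exact_mod_cast this) (f a) (hf.1 a)
  refine ⟨f', ⟨m1, fun g => ?_⟩, fun c => ?_, (sum_le_sum fun a _ => m3 a).trans ?_⟩
  · simp only [m2, ← f2 g]; exact k1 g
  · have := k2 (par c) c
    rw [f2] at this
    simp only [if_true] at this
    simp only [m2]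
    exact_mod_cast this
  have e1 : ∑ a, ∑ i, (if p a i = p' a i then 0 else (f a i).elim 0 fun c => β * 2 ^ lv c) ≤
      σ * ∑ a, ∑ i, wd w (p a i) (p' a i) := by
    simp only [mul_sum]
    refine sum_le_sum fun a _ => sum_le_sum fun i _ => ?_
    rw [wd]
    split_ifs
    · simp
    · have := mul_nonneg hσ (ow_nonneg hw (p' a i))
      rcases h : f a i with _ | c
      · exact mul_nonneg hσ (add_nonneg (ow_nonneg hw _) (ow_nonneg hw _))
      · have h1 := hl c (Or.inl (sum_pos' (fun _ _ => Nat.zero_le _) ⟨a, mem_univ _,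
          card_pos.2 ⟨i, by simpa using h⟩⟩))
        rw [hf.1 a i c h]
        simp only [Option.elim_some]
        linarith
  have e2 : ∀ g, ∑ c, (if par c = g then β * 2 ^ lv c *
      ∑ a, |(cnt (f a) c : ℝ) - (F (par c) c a).toNat| else 0) ≤
      6 * σ * (w g * ∑ a, |(cnt (p' a) g : ℝ) - cnt (p a) g|) + 6 * ∑ c, if par c = g then
        β * 2 ^ lv c * |(A c : ℝ) - (∑ a, cnt (f a) c : ℕ)| else 0 := by
    intro g
    have h1 := mul_le_mul_of_nonneg_left ((Int.cast_le (R := ℝ)).2 (k3 g)) hβ.le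
    have h2 : |∑ a, (cnt (p' a) g : ℝ) - ∑ a, (cnt (p a) g : ℝ)| ≤
        ∑ a, |(cnt (p' a) g : ℝ) - cnt (p a) g| := by
      rw [← sum_sub_distrib]; exact abs_sum_le_sum_abs _ _
    have h3 := mul_le_mul (n1 g) (show ∑ a, |(cnt (p' a) g : ℝ) - cnt (p a) g| +
      2 * |∑ a, (cnt (p' a) g : ℝ) - ∑ a, (cnt (p a) g : ℝ)| ≤
      3 * ∑ a, |(cnt (p' a) g : ℝ) - cnt (p a) g| by linarith) (by positivity)
      (mul_nonneg (by positivity) (hw g))
    rw [f2 g] at h1
    simp only [nd] at h1
    push_cast at h1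
    rw [mul_add, mul_left_comm β 6, mul_sum, mul_sum] at h1
    refine le_trans (le_of_eq (sum_congr rfl fun c _ => ?_)) (h1.trans (add_le_add (by linarith)
      (mul_le_mul_of_nonneg_left (le_of_eq (sum_congr rfl fun c _ => ?_)) (by norm_num))))
    · split_ifs
      · simp only [mul_assoc, abs_sub_comm (cnt _ _ : ℝ), Int.cast_natCast]
      · simp
    · split_ifs <;> simp [mul_assoc]
  have e3 := sum_le_sum fun g (_ : g ∈ univ) => e2 g
  have e4 : ∑ g, w g * ∑ a, |(cnt (p' a) g : ℝ) - cnt (p a) g| ≤ ∑ a, ∑ i, wd w (p a i) (p' a i) := by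
    simp only [mul_sum]
    rw [sum_comm]
    exact sum_le_sum fun a _ => cnt_diff hw _ _
  rw [sum_add_distrib, ← mul_sum, ← mul_sum, sum_comm, sum_comm (s := (univ : Finset G))] at e3
  simp only [sum_ite_eq, mem_univ, if_true] at e3
  rw [sum_add_distrib, ← mul_sum, sum_comm]
  simp only [← mul_sum]
  nlinarith

end Vale.Agent.P304
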