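import Vale.Agent.P304.Alloc
import Vale.Agent.P304.Step

/-! One layer of the hierarchical construction. -/

namespace Vale.Agent.P304

open Finset Real

universe u

variable {X : Type u} [MetricSpace X] {k : ℕ}

lemma sum_elim {K G : Type*} [Fintype K] [Fintype G] [DecidableEq G] (f : K → Option G)
    (φ : G → ℝ) : ∑ i, (f i).elim 0 φ = ∑ g, φ g * cnt f g := by
  classical
  simp only [cnt_eq, mul_sum]
  rw [sum_comm]
  exact sum_congr rfl fun i _ => by cases f i <;> simp

/-- a layer of groups, with an integral allocation of virtual servers in `m` copies -/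
structure Layer (S : Scen X k) (m : ℕ) (Θ ζ γ : ℝ) where
  G : Type u
  fin : Fintype G
  deq : DecidableEq G
  lab : List X → X → Option G
  w : G → ℝ
  a : G → X
  f : List X → Fin m → Fin k → Option G
  P : List X → Fin m → Fin k → X
  hw : ∀ g, 0 ≤ w g
  ha : ∀ h x g, lab h x = some g → dist x (a g) ≤ 1 / 1024 * w g
  h0 : ∀ g, lab [] S.x0 = some g → a g = S.x0
  mass : ∀ r h g, S.Re (r :: h) → lab (r :: h) r = some g →
    S.post (r :: h) (fun ω => cnt (S.lb lab (r :: h) ω) g) ≤ γ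
  bal : ∀ h g, S.Re h → Bal fun b => (cnt (f h b) g : ℤ)
  lo : ∀ h g, S.Re h → S.Lo lab m Θ ζ h g (∑ b, cnt (f h b) g : ℕ)
  up : ∀ h g, S.Re h →
    ((∑ b, cnt (f h b) g : ℕ) : ℝ) ≤ 2 * m * S.post h fun ω => cnt (S.lb lab h ω) g
  fP : ∀ h b i g, S.Re h → f h b i = some g → dist (P h b i) (a g) ≤ 5 * w g
  srv : ∀ r h, S.Re (r :: h) → lab (r :: h) r = none → ∀ b, ∃ i,
    f (r :: h) b i = none ∧ P (r :: h) b i = r
  P0 : ∀ b i, P [] b i = S.x0
  f0 : ∀ b i g, f [] b i = some g → a g = S.x0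

attribute [instance] Layer.fin Layer.deq

namespace Layer

variable {S : Scen X k} {m : ℕ} {Θ ζ γ : ℝ} (L : Layer S m Θ ζ γ)

/-- cost of label changes of the offline servers -/
noncomputable def V : ℝ := S.Vc L.lab L.w

/-- cost of label changes of the virtual servers -/
noncomputable def Xc : ℝ := S.Ex fun t ω => ∑ b, ∑ i,
  wd L.w (L.f (S.hist ω t) b i) (L.f (S.hist ω (t + 1)) b i)

/-- movement of the virtual servers -/
noncomputable def Mv : ℝ := S.Ex fun t ω => ∑ b, ∑ i,
  dist (L.P (S.hist ω t) b i) (L.P (S.hist ω (t + 1)) b i)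

open Scen

lemma move_le (c : List X → L.G → X) (hc : ∀ h g, dist (c h g) (L.a g) ≤ 1 / 1024 * L.w g) :
    S.Ex (fun t ω => ∑ b, ∑ i,
      dist ((L.f (S.hist ω t) b i).elim (L.P (S.hist ω t) b i) (c (S.hist ω t)))
        ((L.f (S.hist ω (t + 1)) b i).elim (L.P (S.hist ω (t + 1)) b i) (c (S.hist ω (t + 1))))) ≤
      L.Mv + 6 * L.Xc + 2 * m * S.Dr L.lab c := by
  have h1 : ∀ h b i, S.Re h → dist ((L.f h b i).elim (L.P h b i) (c h)) (L.P h b i) ≤
      6 * (L.f h b i).elim 0 L.w := by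
    intro h b i H
    rcases h2 : L.f h b i with _ | g
    · simp
    · have := dist_triangle_right (c h g) (L.P h b i) (L.a g)
      have := L.fP h b i g H h2
      have := hc h g
      have := L.hw g
      simp only [Option.elim_some]
      linarith
  have h2 : S.Ex (fun t ω => ∑ b, ∑ i, (L.f (S.hist ω (t + 1)) b i).elim 0
      fun g => dist (c (S.hist ω t) g) (c (S.hist ω (t + 1)) g)) ≤ 2 * m * S.Dr L.lab c := by
    rw [Dr, ← Ex_mul]
    refine sum_le_sum fun t _ => ?_
    have := S.Ev_fib (t + 1) fun h ω => 2 * m * ∑ g, dist (c h.tail g) (c h g) *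
      cnt (S.lb L.lab h ω) g
    simp only [sum_elim]
    refine le_trans (Ev_mono fun ω => ?_) this.ge
    simp only [post_mul, post_sum]
    rw [sum_comm, mul_sum]
    refine sum_le_sum fun g _ => ?_
    have := mul_le_mul_of_nonneg_left (L.up _ g (re_hist ω (t + 1)))
      (dist_nonneg (x := c (S.hist ω t) g) (y := c (S.hist ω (t + 1)) g))
    rw [← mul_sum, mul_left_comm]
    exact_mod_cast this
  refine le_trans ?_ (add_le_add le_rfl h2)
  rw [Mv, Xc, ← Ex_mul, ← Ex_add, ← Ex_add]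
  refine Ex_mono fun t ω => ?_
  simp only [mul_sum, ← sum_add_distrib]
  refine sum_le_sum fun b _ => sum_le_sum fun i _ => ?_
  have d0 := dist_nonneg (x := L.P (S.hist ω t) b i) (y := L.P (S.hist ω (t + 1)) b i)
  rw [wd]
  split_ifs with h3
  · rw [h3]
    cases L.f (S.hist ω (t + 1)) b i <;> simp
  · have a1 := h1 _ b i (re_hist ω t)
    have a2 := h1 _ b i (re_hist ω (t + 1))
    have a3 := dist_triangle4 ((L.f (S.hist ω t) b i).elim (L.P (S.hist ω t) b i) (c (S.hist ω t)))
      (L.P (S.hist ω t) b i) (L.P (S.hist ω (t + 1)) b i)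
      ((L.f (S.hist ω (t + 1)) b i).elim (L.P (S.hist ω (t + 1)) b i) (c (S.hist ω (t + 1))))
    rw [dist_comm (L.P (S.hist ω (t + 1)) b i)] at a3
    have a4 : 0 ≤ (L.f (S.hist ω (t + 1)) b i).elim 0
        fun g => dist (c (S.hist ω t) g) (c (S.hist ω (t + 1)) g) := by
      cases L.f (S.hist ω (t + 1)) b i; exacts [le_rfl, dist_nonneg]
    linarith

theorem step [Fintype X] [DecidableEq X] [NeZero m] (hne : S.Re []) (β : ℝ) (hβ : 0 < β) (J : ℕ)
    (d1 : ∀ x y : X, x ≠ y → 2 * β ≤ dist x y) (d2 : ∀ x y : X, dist x y < β * 2 ^ J)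
    {θ η δ : ℝ} (hθ : 6 ≤ θ) (hη : 0 < η) (hθη : 3 * θ * η ≤ 1) (hδ : 0 < δ) (hδ1 : δ ≤ 1 / 4)
    (hm : 1 ≤ m * (δ * η)) (hΘ : 0 ≤ Θ)
    (H1 : 2 * k * (m * (3 * θ * η) + 1) ≤ m * ((θ / (1 + δ) - Θ) * ζ)) (H2 : Θ ≤ θ / (1 + δ)) :
    ∃ L' : Layer S m (θ / (1 - δ)) (η / 2) (3 / 4 * γ),
      L'.V ≤ L.V / 2 + (252 + 8192 * (1 + log (2 * k + 2))) * S.OPT ∧
      L'.Xc ≤ L.Xc / 2 + 6 * (m * (θ + 1) * (6 / δ * log (1 + 1 / η))) * L'.V ∧
      L'.Mv ≤ L.Mv + 6 * L.Xc + 6 * m * (S.OPT + L.V) := by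
  obtain ⟨c, c0, c1, c2, c3⟩ := centers L.lab L.w L.hw L.a (1 / 1024) (by norm_num) L.ha L.h0
  have c4 : ∀ h x g, L.lab h x = some g → dist x (c h g) ≤ 1 / 512 * L.w g := fun h x g H => by
    linarith [dist_triangle_right x (c h g) (L.a g), L.ha h x g H, c1 h g]
  obtain ⟨lab1, s1, s2, s3⟩ := shells (S := S) L.lab L.w L.hw c _ c4 β hβ J d1 d2
  have s0 : lab1 [] S.x0 = none := Option.eq_none_iff_forall_ne_some.2 fun g H => by
    obtain ⟨h1, h2, -⟩ := s1 _ _ _ H
    rw [c0, L.h0 _ h1, dist_self] at h2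
    exact absurd h2 (not_le.2 (by positivity))
  obtain ⟨lab2, r1, r2, r3⟩ := refine_cells lab1 (fun g => g.2) J (fun g => g.2.2) β (1 / 2048) hβ
    (by norm_num) s0
  have r0 : lab2 [] S.x0 = none := Option.eq_none_iff_forall_ne_some.2 fun g H => by
    simpa [s0] using (r1 _ _ _ H).1
  have hp : ∀ h x c, lab2 h x = some c → L.lab h x = some c.1.1 := fun h x c H =>
    (s1 _ _ _ (r1 _ _ _ H).1).1
  obtain ⟨A, a0, a1, a2, a3⟩ := targets L.lab lab2 (fun c => c.1.1) hp r0
    (fun c => β * 2 ^ (c.1.2 : ℕ)) (fun _ => by positivity) m hθ hη hθη hδ hδ1 hm hΘ H1 H2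
  have ne : ∀ h g, S.Re h → 0 < A h g → ∃ x, lab2 h x = some g := fun h g H h1 => by
    by_contra h2
    push Not at h2
    have h3 := (a1 h g H).2
    simp only [cnt, lb, h2, filter_false, card_empty, Nat.cast_zero, post_const H] at h3
    exact absurd h3 (by simpa using h1.ne')
  have nl : ∀ h g, S.Re h → 0 < A h g → β * 2 ^ (g.1.2 : ℕ) ≤ 1 / 512 * L.w g.1.1 :=
    fun h g H h1 => by
    obtain ⟨x, hx⟩ := ne h g H h1
    exact (s1 _ _ _ (r1 _ _ _ hx).1).2.1.trans (c4 _ _ _ (hp _ _ _ hx))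
  obtain ⟨F, f0, f1, f2⟩ := S.adapted (fun h f' => Ref (fun c : (L.G × Fin J) × X => c.1.1)
      (fun c => c.1.2) (L.f h) f' ∧ ∀ c, ∑ b, cnt (f' b) c = A h c)
    (fun h f' f'' => ∑ b, ∑ i, wd (fun c => β * 2 ^ (c.1.2 : ℕ)) (f' b i) (f'' b i) ≤
      8 * (1 / 512) * ∑ b, ∑ i, wd L.w (L.f h.tail b i) (L.f h b i) +
        6 * ∑ c, β * 2 ^ (c.1.2 : ℕ) * |(A h c : ℝ) - A h.tail c|) (fun _ _ => none)
    ⟨⟨by simp, fun g => ⟨fun c => by dsimp only; split_ifs <;> simp [Bal, cnt], fun j => by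
      simpa [cnt, ← Pi.zero_def] using L.bal [] g hne⟩⟩, fun c => by simp [cnt, a0 c hne]⟩
    fun r h f' H hf => by
      obtain ⟨f'', k1, k2, k3⟩ := round_step _ _ hβ (by norm_num : (0 : ℝ) ≤ 1 / 512) L.w L.hw
        (L.f h) (L.f (r :: h)) f' (A (r :: h)) hf.1 (fun g => L.bal _ g H) (fun g => by
          have := a2 _ g 0 _ H (L.lo _ g H) fun _ _ => Nat.zero_le _
          rw [Nat.cast_zero, mul_zero, zero_add] at this
          exact_mod_cast this)
        fun c hc => hc.elim (fun h1 => nl h c H.tail (hf.2 c ▸ h1)) (nl _ c H)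
      simp only [hf.2] at k3
      exact ⟨f'', ⟨k1, k2⟩, k3⟩
  let L' : Layer S m (θ / (1 - δ)) (η / 2) (3 / 4 * γ) :=
    { G := (L.G × Fin J) × X
      fin := inferInstance
      deq := inferInstance
      lab := lab2
      w := fun c => β * 2 ^ (c.1.2 : ℕ)
      a := fun c => c.2
      f := F
      P := fun h b i => (L.f h b i).elim (L.P h b i) (c h)
      hw := fun _ => by positivity
      ha := fun h x g H => (r1 _ _ _ H).2.trans (le_of_eq (by ring))
      h0 := fun g H => by simp [r0] at H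
      mass := fun r h g H h1 => by
        obtain ⟨h2, h3, -⟩ := s1 _ _ _ (r1 _ _ _ h1).1
        have h4 := c3 r h _ h2 fun h4 => by
          rw [h4, dist_self] at h3
          exact absurd h3 (not_le.2 (by positivity))
        have h5 := L.mass r h _ H h2
        have h6 : S.post (r :: h) (fun ω => cnt (S.lb lab2 (r :: h) ω) g) ≤ S.post (r :: h)
            (S.near L.lab (r :: h) g.1.1 r (dist r (c (r :: h) g.1.1) / 16)) :=
          post_mono H fun ω _ => by
            rw [cnt_eq, near]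
            refine sum_le_sum fun i _ => ?_
            split_ifs with h7 h8 h8
            · exact le_rfl
            · refine absurd ⟨hp _ _ _ h7, ?_⟩ h8
              have := dist_triangle_right (S.pos ω (r :: h).length i) r g.2
              have := (r1 _ _ _ h7).2
              have := (r1 _ _ _ h1).2
              have : 0 < β * 2 ^ (g.1.2 : ℕ) := by positivity
              linarith
            all_goals norm_num
        linarith
      bal := fun h g H => by simpa using ((f1 h H).1.2 g.1.1).1 g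
      lo := fun h g H => (f1 h H).2 g ▸ (a1 h g H).1
      up := fun h g H => (f1 h H).2 g ▸ (a1 h g H).2
      fP := fun h b i g H h1 => by
        obtain ⟨x, hx⟩ := ne h g H ((f1 h H).2 g ▸ sum_pos' (fun _ _ => Nat.zero_le _)
          ⟨b, mem_univ _, card_pos.2 ⟨i, by simpa using h1⟩⟩)
        have h2 := (r1 _ _ _ hx).2
        have h3 := (s1 _ _ _ (r1 _ _ _ hx).1).2.2
        have h4 := dist_triangle_left (c h g.1.1) g.2 x
        have : 0 < β * 2 ^ (g.1.2 : ℕ) := by positivity
        simp only [(f1 h H).1.1 b i g h1, Option.elim_some]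
        linarith
      srv := fun r h H h1 b => by
        rcases h2 : L.lab (r :: h) r with _ | g
        · obtain ⟨i, h3, h4⟩ := L.srv r h H h2 b
          exact ⟨i, Option.eq_none_iff_forall_ne_some.2 fun g h5 => by
            simpa [h3] using (f1 _ H).1.1 b i g h5, by simp [h3, h4]⟩
        · have h3 := a2 _ g 1 _ H (L.lo _ g H) fun ω hω => card_pos.2 ⟨S.ch ω h.length, by
            rw [mem_filter_univ]
            simp only [lb, List.length_cons, pos_self]
            rw [(List.cons.inj hω).1]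
            exact ⟨h2, h1⟩⟩
          have h4 := (((f1 _ H).1.2 g).2 0).ge 1 (by
            simp only [Nat.zero_le, if_true, Pi.sub_apply, sum_sub_distrib, Finset.sum_apply,
              ite_apply, Pi.zero_apply]
            rw [sum_comm, le_sub_iff_add_le]
            simp only [← (f1 _ H).2] at h3
            simp only [sum_ite_irrel, sum_const_zero, Fintype.card_fin]
            exact_mod_cast h3) b
          have h5 := cnt_split _ _ _ ((f1 _ H).1.1 b) g
          simp only [Nat.zero_le, if_true, Pi.sub_apply, Finset.sum_apply, ite_apply,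
            Pi.zero_apply, le_sub_iff_add_le] at h4
          have h6 : 1 + ∑ c : (L.G × Fin J) × X, (if c.1.1 = g then cnt (F (r :: h) b) c else 0) ≤
            cnt (L.f (r :: h) b) g := by exact_mod_cast h4
          obtain ⟨i, hi⟩ := card_pos.1 (by omega : 0 < (univ.filter fun i =>
            L.f (r :: h) b i = some g ∧ F (r :: h) b i = none).card)
          rw [mem_filter_univ] at hi
          exact ⟨i, hi.2, by simp [hi.1, ← s2 _ _ _ (r2 _ _ h1) h2]⟩
      P0 := fun b i => by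
        rcases h1 : L.f [] b i with _ | g
        · exact L.P0 b i
        · rw [c0]; exact L.f0 b i g h1
      f0 := fun b i g H => by simp [f0] at H }
  have o := OPT_nonneg (S := S)
  have v : 0 ≤ S.Vc L.lab L.w := Ex_nonneg fun _ _ => sum_nonneg fun _ _ => wd_nonneg L.hw _ _
  refine ⟨L', ?_, ?_, (L.move_le c c1).trans ?_⟩
  · change S.Vc lab2 _ ≤ S.Vc L.lab L.w / 2 + _
    linarith
  · have x0 : 0 ≤ L.Xc := Ex_nonneg fun _ _ => sum_nonneg fun _ _ => sum_nonneg fun _ _ =>
      wd_nonneg L.hw _ _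
    have := Ex_mono (S := S) fun t ω => f2 _ _ (re_hist ω (t + 1))
    rw [Ex_add, Ex_mul, Ex_mul] at this
    change L'.Xc ≤ _ * L.Xc + 6 * S.Ex (fun t ω => ∑ c : (L.G × Fin J) × X, _ *
      |(A (S.hist ω (t + 1)) c : ℝ) - A (S.hist ω t) c|) at this
    change _ ≤ _ + _ * S.Vc lab2 fun c => β * 2 ^ (c.1.2 : ℕ)
    linarith
  · have := mul_le_mul_of_nonneg_left c2 (by positivity : (0 : ℝ) ≤ 2 * m)
    have := mul_nonneg m.cast_nonneg v
    unfold V
    linarith

end Layer

end Vale.Agent.P304
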