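import Vale.Agent.P304.Core

/-! Minimax and compactness. -/

namespace Vale.Agent.P304

open Finset Real MeasureTheory

universe u

variable {X : Type u} [MetricSpace X] {k : ℕ}

lemma move_map {Y : Type*} [MetricSpace Y] (φ : Y → X) (hφ : Isometry φ) (s : Fin k → Y)
    (req' : ℕ → Y) (req : ℕ → X) (ch' ch : ℕ → Fin k) (T : ℕ)
    (h : ∀ t < T, φ (req' t) = req t ∧ ch' t = ch t) :
    move s req' ch' T = move (fun i => φ (s i)) req ch T := by
  have h1 : ∀ t ≤ T, ∀ i, φ (conf s req' ch' t i) = conf (fun i => φ (s i)) req ch t i := by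
    intro t
    induction t with
    | zero => exact fun _ _ => rfl
    | succ t ih =>
      intro ht i
      simp only [conf, (h t ht).2, Function.update_apply]
      split_ifs
      exacts [(h t ht).1, ih (by omega) i]
  refine sum_congr rfl fun t ht => ?_
  have ht := mem_range.1 ht
  rw [← hφ.dist_eq, h1 t ht.le, (h t ht).1, (h t ht).2]

lemma move_pad (s : Fin k → X) (req : ℕ → X) (ch : ℕ → Fin k) (i : Fin k) (T n : ℕ) :
    move s (fun t => if t < T then req t else conf s req ch T i)
      (fun t => if t < T then ch t else i) (T + n) = move s req ch T := by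
  set req' := fun t => if t < T then req t else conf s req ch T i
  set ch' := fun t => if t < T then ch t else i
  have h0 : ∀ t ≤ T, conf s req' ch' t = conf s req ch t := by
    intro t
    induction t with
    | zero => exact fun _ => rfl
    | succ t ih => intro ht; simp only [conf, ih (by omega), req', ch', if_pos (show t < T from ht)]
  have h1 : ∀ n, conf s req' ch' (T + n) = conf s req ch T := by
    intro n
    induction n with
    | zero => exact h0 T le_rfl
    | succ n ih => simp [← add_assoc, conf, ih, req', ch']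
  induction n with
  | zero => exact move_map id isometry_id s _ _ _ _ T fun t ht => by simp [req', ch', ht]
  | succ n ih => rw [← add_assoc, move, sum_range_succ, ← move, ih, h1]; simp [req', ch']

lemma move_nonneg (s : Fin k → X) (req : ℕ → X) (ch : ℕ → Fin k) (T : ℕ) : 0 ≤ move s req ch T :=
  sum_nonneg fun _ _ => dist_nonneg

theorem finite_game (hk : 2 ≤ k) (x0 : X) {E : Type u} [Fintype E] (q : E → ℝ) (hq : ∀ e, 0 ≤ q e)
    (req : E → ℕ → X) (T : E → ℕ) (ch : E → ℕ → Fin k) : ∃ A : List X → Fin k,
    ∑ e, q e * move (fun _ => x0) (req e) (choices A (req e)) (T e) ≤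
      10 ^ 14 * log k ^ 5 * ∑ e, q e * move (fun _ => x0) (req e) (ch e) (T e) := by
  classical
  let i0 : Fin k := ⟨0, by omega⟩
  by_cases h0 : ∀ e, q e = 0
  · exact ⟨fun _ => i0, by simp [h0]⟩
  push Not at h0
  let N := univ.sup T
  let rq : E → ℕ → X := fun e t => if t < T e then req e t else conf (fun _ => x0) (req e) (ch e) (T e) i0
  let Y : Finset X := insert x0 ((univ ×ˢ range N).image fun p => rq p.1 p.2)
  let ρ : X → Y := fun x => if h : x ∈ Y then ⟨x, h⟩ else ⟨x0, mem_insert_self _ _⟩
  have hρ : ∀ e, ∀ t < N, (ρ (rq e t) : X) = rq e t := fun e t ht => by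
    simp only [ρ]
    rw [dif_pos (mem_insert_of_mem (mem_image.2 ⟨(e, t), by simpa using ht, rfl⟩))]
  let S : Scen Y k := ⟨{e // q e ≠ 0}, inferInstance, fun e => q e,
    fun e => (hq e).lt_of_ne' e.2, fun e t => ρ (rq e t),
    fun e t => if t < T e then ch e t else i0, ⟨x0, mem_insert_self _ _⟩, N⟩
  haveI : Nonempty S.Ω := let ⟨e, he⟩ := h0; ⟨⟨e, he⟩⟩
  obtain ⟨A, hA⟩ := core S hk
  have hs : ∀ F : E → ℝ, ∑ e, q e * F e = S.Ev fun e => F e.1 := fun F =>
    (sum_filter_of_ne (p := fun e => q e ≠ 0) fun e _ h => left_ne_zero_of_mul h).symm.trans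
      (sum_subtype _ (by simp) fun e => q e * F e)
  refine ⟨fun l => A (l.map ρ), ?_⟩
  rw [hs, hs]
  refine le_trans (Scen.Ev_mono fun e => ?_) (hA.trans (le_of_eq ?_))
  · have hT : T e.1 ≤ N := le_sup (f := T) (mem_univ _)
    refine le_trans (le_of_eq (move_map Subtype.val isometry_subtype_coe (fun _ => S.x0) (S.req e)
      _ (choices A (S.req e)) _ _ fun t ht => ⟨(hρ _ t (ht.trans_le hT)).trans (if_pos ht), ?_⟩).symm)
      (sum_le_sum_of_subset_of_nonneg (range_mono hT) fun _ _ _ => dist_nonneg)
    simp only [choices, List.map_map]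
    refine congrArg A (List.map_congr_left fun s hs => ?_)
    exact congrArg ρ (if_pos ((Nat.lt_succ_iff.1 (List.mem_range.1 hs)).trans_lt ht))
  · refine congrArg _ (congrArg _ (funext fun e => ?_))
    obtain ⟨n, hn⟩ := Nat.exists_eq_add_of_le (le_sup (f := T) (mem_univ e.1))
    rw [← move_pad _ (req e.1) _ i0 _ n, ← hn]
    exact move_map Subtype.val isometry_subtype_coe _ _ _ _ _ _ fun t ht => ⟨hρ _ t ht, rfl⟩

theorem minimax {α E : Type*} [MeasurableSpace α] [Fintype E] (u : E → α → ℝ)
    (hu : ∀ e, Measurable (u e)) (hi : ∀ e (μ : Measure α) [IsFiniteMeasure μ], Integrable (u e) μ)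
    (h : ∀ q : E → ℝ, (∀ e, 0 ≤ q e) → ∃ a, ∑ e, q e * u e a ≤ 0) :
    ∃ μ : ProbabilityMeasure α, ∀ e, ∫ a, u e a ∂μ ≤ 1 := by
  classical
  by_contra hc
  let K : Set (E → ℝ) := {v | ∃ μ : Measure α, IsProbabilityMeasure μ ∧ ∀ e, v e = ∫ a, u e a ∂μ}
  have hK : Convex ℝ K := by
    rintro _ ⟨μ, _, h1⟩ _ ⟨ν, _, h2⟩ a b ha hb hab
    refine ⟨a.toNNReal • μ + b.toNNReal • ν, ⟨by
      simp [← ENNReal.coe_add, ← Real.toNNReal_add ha hb, hab]⟩, fun e => ?_⟩
    rw [integral_add_measure (hi e _) (hi e _), integral_smul_nnreal_measure,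
      integral_smul_nnreal_measure]
    simp [h1, h2, NNReal.smul_def, ha, hb]
  obtain ⟨f, c, h1, h2⟩ := geometric_hahn_banach_open (s := Set.univ.pi fun _ : E => Set.Iio (1 : ℝ))
    (convex_pi fun _ _ => convex_Iio 1) (isOpen_set_pi Set.finite_univ fun _ _ => isOpen_Iio) hK
    (Set.disjoint_left.2 fun v hv ⟨μ, hμ, h3⟩ => hc ⟨⟨μ, hμ⟩, fun e => (h3 e ▸ hv e trivial).le⟩)
  have hf : ∀ v, f v = ∑ e, f (Pi.single e 1) * v e := fun v => by
    conv_lhs => rw [← univ_sum_single v, map_sum]
    refine sum_congr rfl fun e _ => ?_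
    rw [mul_comm, ← smul_eq_mul, ← map_smul, ← Pi.single_smul, smul_eq_mul, mul_one]
  have h0 := h1 0 fun _ _ => Set.mem_Iio.2 zero_lt_one
  rw [map_zero] at h0
  obtain ⟨a, ha⟩ := h (fun e => f (Pi.single e 1)) fun e => by
    by_contra h3
    have h4 := h1 ((c / f (Pi.single e 1)) • Pi.single e 1) fun e' _ => by
      have := div_neg_of_pos_of_neg h0 (not_le.1 h3)
      simp only [Pi.smul_apply, Pi.single_apply, smul_eq_mul, Set.mem_Iio]
      split_ifs <;> linarith
    rw [map_smul, smul_eq_mul, div_mul_cancel₀ _ (not_le.1 h3).ne] at h4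
    exact lt_irrefl _ h4
  have := h2 (fun e => u e a) ⟨Measure.dirac a, inferInstance, fun e =>
    (integral_dirac' _ _ (hu e).stronglyMeasurable).symm⟩
  rw [hf] at this
  linarith

/-- deterministic policies with the Borel structure -/
def Pol (X : Type u) (k : ℕ) : Type u := List X → Fin k

instance : TopologicalSpace (Pol X k) := inferInstanceAs (TopologicalSpace (List X → Fin k))
instance : T2Space (Pol X k) := inferInstanceAs (T2Space (List X → Fin k))
instance : CompactSpace (Pol X k) := inferInstanceAs (CompactSpace (List X → Fin k))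
instance : MeasurableSpace (Pol X k) := borel _
instance : BorelSpace (Pol X k) := ⟨rfl⟩

theorem polylog (hk : 2 ≤ k) (s : Fin k → X) : ∃ μ : Measure (List X → Fin k),
    IsProbabilityMeasure μ ∧ Competitive s μ (10 ^ 14 * log k ^ 5) := by
  classical
  let i0 : Fin k := ⟨0, by omega⟩
  haveI : Nonempty (Fin k) := ⟨i0⟩
  set c := 10 ^ 14 * log k ^ 5 with hc
  have c0 : 0 ≤ c := by have := log_ge hk; positivity
  set d := ∑ i, dist (s i) (s i0) with hd
  have fac : ∀ req T, ∃ g : (Fin T → Fin k) → ℝ, ∀ A : List X → Fin k,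
      move s req (choices A req) T = g fun t => A ((List.range (t + 1)).map req) := fun req T =>
    ⟨fun v => move s req (fun t => if h : t < T then v ⟨t, h⟩ else i0) T, fun A =>
      move_map id isometry_id s _ _ _ _ T fun t ht => ⟨rfl, by simp [ht, choices]⟩⟩
  have cont : ∀ req T, Continuous fun A : Pol X k => move s req (choices A req) T := fun req T => by
    obtain ⟨g, hg⟩ := fac req T
    exact ((continuous_of_discreteTopology (f := g)).comp
      (continuous_pi fun t => continuous_apply ((List.range (t.1 + 1)).map req))).congr fun A => (hg A).symm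
  have meas : ∀ req T, Measurable fun A : List X → Fin k => move s req (choices A req) T :=
    fun req T => by
    obtain ⟨g, hg⟩ := fac req T
    simp only [hg]
    exact (measurable_of_finite g).comp (measurable_pi_lambda _ fun t => measurable_pi_apply _)
  let F : (ℕ → X) × ℕ → BoundedContinuousFunction (Pol X k) ℝ := fun e =>
    .mkOfCompact ⟨fun A => move s e.1 (choices A e.1) e.2 - (c * opt s e.1 e.2 + (c * (d + 1) + d)),
      (cont _ _).sub continuous_const⟩
  obtain ⟨μ, -, hμ⟩ := isCompact_univ.inter_iInter_nonempty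
    (fun e => {μ : ProbabilityMeasure (Pol X k) | ∫ A, F e A ∂μ ≤ 1})
    (fun e => isClosed_le (ProbabilityMeasure.continuous_integral_boundedContinuousFunction _)
      continuous_const) fun U => by
      obtain ⟨μ, hμ⟩ := minimax (fun e : U => F e) (fun e => (F e).continuous.measurable)
        (fun e μ _ => (F e).integrable μ) fun q hq => by
        choose ch hch using fun e : U => exists_lt_of_ciInf_lt (lt_add_one (opt s e.1.1 e.1.2))
        obtain ⟨A, hA⟩ := finite_game hk (s i0) q hq (fun e => e.1.1) (fun e => e.1.2) ch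
        refine ⟨A, ?_⟩
        rw [← hc, mul_sum, ← sub_nonpos, ← sum_sub_distrib] at hA
        refine le_trans (sum_le_sum fun e _ => ?_) hA
        rw [mul_left_comm, ← mul_sub]
        refine mul_le_mul_of_nonneg_left ?_ (hq e)
        have h1 := move_init s (fun _ => s i0) e.1.1 (choices A e.1.1) e.1.2
        have h2 := move_init (fun _ => s i0) s e.1.1 (ch e) e.1.2
        simp only [dist_comm (s i0)] at h2
        have h3 := mul_le_mul_of_nonneg_left (h2.trans (add_le_add le_rfl (hch e).le)) c0
        change move s e.1.1 (choices A e.1.1) e.1.2 - _ ≤ _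
        linarith
      exact ⟨μ, trivial, by simpa using hμ⟩
  have hm : Measurable (fun (A : Pol X k) (l : List X) => A l) :=
    measurable_pi_lambda _ fun l =>
      (show Continuous fun A : Pol X k => A l from continuous_apply l).measurable
  refine ⟨(μ : Measure (Pol X k)).map _, Measure.isProbabilityMeasure_map hm.aemeasurable,
    c * (d + 1) + d + 1, fun req T => ?_⟩
  have hi : Integrable (fun A : Pol X k => move s req (choices A req) T) μ :=
    (BoundedContinuousFunction.mkOfCompact ⟨_, cont req T⟩).integrable _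
  refine ⟨(integrable_map_measure (meas req T).aestronglyMeasurable hm.aemeasurable).2 hi, ?_⟩
  rw [integral_map hm.aemeasurable (meas req T).aestronglyMeasurable]
  have := Set.mem_iInter.1 hμ (req, T)
  change ∫ A : Pol X k, (move s req (choices A req) T - _) ∂μ ≤ 1 at this
  rw [integral_sub hi (integrable_const _), integral_const, probReal_univ, one_smul] at this
  linarith

end Vale.Agent.P304
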