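import Mathlib

/-! Balanced rounding on a chain of levels, and relabeling of servers. -/

namespace Vale.Agent.P304

open Finset

section
variable {ι C : Type*} [Fintype ι] [DecidableEq ι] [Fintype C] [DecidableEq C]

/-- balanced integer vectors -/
def Bal (N : ι → ℤ) : Prop := ∀ a b, N a ≤ N b + 1

/-- the l1 distance -/
def nd (N N' : ι → ℤ) : ℤ := ∑ a, |N' a - N a|

lemma nd_nonneg (N N' : ι → ℤ) : 0 ≤ nd N N' := sum_nonneg fun _ _ => abs_nonneg _

lemma nd_self (N : ι → ℤ) : nd N N = 0 := by simp [nd]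

lemma nd_tri (N N' N'' : ι → ℤ) : nd N N'' ≤ nd N N' + nd N' N'' := by
  rw [nd, nd, nd, ← sum_add_distrib]
  exact sum_le_sum fun a _ => by rw [add_comm]; exact abs_sub_le _ _ _

lemma Bal.ge {N : ι → ℤ} (h : Bal N) (e : ℤ) (he : Fintype.card ι * e ≤ ∑ a, N a) (a : ι) :
    e ≤ N a := by
  by_contra hc
  have : ∑ b, N b < ∑ _b : ι, e :=
    sum_lt_sum (fun b _ => by have := h b a; omega) ⟨a, mem_univ _, by omega⟩
  simp at this
  omega

lemma Bal.neg {N : ι → ℤ} (h : Bal N) : Bal (-N) := fun a b => by
  have := h b a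
  simp only [Pi.neg_apply]; omega

lemma Bal.zero {N : ι → ℤ} (h : Bal N) (he : ∑ a, N a = 0) : N = 0 := by
  funext a
  have h1 := h.ge 0 (by simp [he]) a
  have h2 := h.neg.ge 0 (by simp [he]) a
  simp only [Pi.neg_apply] at h2
  simp only [Pi.zero_apply]; omega

lemma bal_zero : Bal (0 : ι → ℤ) := fun _ _ => by simp

lemma grow [Nonempty ι] (n : ℕ) : ∀ N : ι → ℤ, Bal N →
    ∃ N', Bal N' ∧ ∑ a, N' a = ∑ a, N a + n ∧ nd N N' ≤ n := by
  induction n with
  | zero => exact fun N h => ⟨N, h, by simp, by simp [nd_self]⟩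
  | succ n ih =>
    intro N h
    obtain ⟨M, h1, h2, h3⟩ := ih N h
    obtain ⟨b, -, hb⟩ := exists_min_image univ M univ_nonempty
    refine ⟨M + Pi.single b 1, fun a a' => ?_, ?_, (nd_tri _ M _).trans ?_⟩
    · have := h1 a a'
      have := hb a' (mem_univ _)
      simp only [Pi.add_apply, Pi.single_apply]
      split_ifs <;> subst_vars <;> omega
    · simp [sum_add_distrib, h2, add_assoc]
    · have : nd M (M + Pi.single b 1) = 1 := by simp [nd, Pi.single_apply, apply_ite abs]
      push_cast; omega

lemma adjust [Nonempty ι] (N : ι → ℤ) (h : Bal N) (A : ℤ) :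
    ∃ N', Bal N' ∧ ∑ a, N' a = A ∧ nd N N' ≤ |A - ∑ a, N a| := by
  rcases le_total (∑ a, N a) A with hA | hA
  · obtain ⟨n, rfl⟩ := Int.le.dest hA
    simpa using grow n N h
  · obtain ⟨n, hn⟩ := Int.le.dest hA
    obtain ⟨M, h1, h2, h3⟩ := grow n (-N) h.neg
    refine ⟨-M, h1.neg, ?_, ?_⟩
    · simp only [Pi.neg_apply, sum_neg_distrib] at h2 ⊢; omega
    · rw [← hn]
      simp only [nd, Pi.neg_apply] at h3 ⊢
      rw [show A - (A + n) = -(n : ℤ) by ring, abs_neg, Nat.abs_cast]
      exact (sum_congr rfl fun a _ => by rw [← abs_neg]; congr 1; ring).trans_le h3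

lemma swaps (R : ι → ℤ) (hR : Bal R) (n : ℕ) : ∀ F : C → ι → ℤ, (∀ c, Bal (F c)) →
    ∑ c, ∑ a, F c a = ∑ a, R a → nd (∑ c, F c) R ≤ n →
    ∃ F' : C → ι → ℤ, (∀ c, Bal (F' c)) ∧ (∀ c, ∑ a, F' c a = ∑ a, F c a) ∧ ∑ c, F' c = R ∧
      ∑ c, nd (F c) (F' c) ≤ nd (∑ c, F c) R := by
  induction n using Nat.strong_induction_on with
  | _ n ih =>
  intro F hF hs hn
  by_cases h0 : ∑ c, F c = R
  · exact ⟨F, hF, fun _ => rfl, h0, by simp [nd_self, h0]⟩
  set S := ∑ c, F c with hS
  have hs' : ∑ a, S a = ∑ a, R a := by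
    rw [← hs, sum_comm]; simp [hS]
  obtain ⟨a, ha⟩ : ∃ a, S a < R a := by
    by_contra hc
    push Not at hc
    exact h0 (funext fun a => ((sum_eq_sum_iff_of_le fun a _ => hc a).1 hs'.symm a (mem_univ _)).symm)
  obtain ⟨b, hb⟩ : ∃ b, R b < S b := by
    by_contra hc
    push Not at hc
    exact h0 (funext fun a => (sum_eq_sum_iff_of_le fun a _ => hc a).1 hs' a (mem_univ _))
  have hab : a ≠ b := by rintro rfl; omega
  obtain ⟨c, hc⟩ : ∃ c, F c a < F c b := by
    by_contra hc
    push Not at hc
    have h1 : S b ≤ S a := by simpa [hS] using sum_le_sum fun c (_ : c ∈ univ) => hc c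
    have := hR a b
    omega
  let v : ι → ℤ := Pi.single a 1 - Pi.single b 1
  let G : C → ι → ℤ := F + Pi.single c v
  have e1 : ∑ c, G c = S + v := by simp [G, sum_add_distrib, hS]
  have e2 : nd (S + v) R + 2 = nd S R := by
    have : ∀ x, |R x - (S + v) x| + ((Pi.single a 1 : ι → ℤ) x + (Pi.single b 1 : ι → ℤ) x) =
        |R x - S x| := by
      intro x
      simp only [v, Pi.add_apply, Pi.sub_apply, Pi.single_apply]
      split_ifs with h1 h2 <;> subst_vars
      · exact absurd rfl hab
      · rw [abs_of_nonneg (by omega), abs_of_nonneg (by omega)]; ring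
      · rw [abs_of_nonpos (by omega), abs_of_nonpos (by omega)]; ring
      · simp
    rw [nd, nd, ← sum_congr rfl fun x _ => this x]
    simp [sum_add_distrib]
  have e3 : ∀ c', ∑ x, G c' x = ∑ x, F c' x := by
    intro c'
    by_cases h : c' = c
    · subst h; simp [G, v, sum_add_distrib]
    · simp [G, h]
  have e4 : ∑ c', nd (F c') (G c') ≤ 2 := by
    rw [sum_eq_single c (fun c' _ h => by simp [G, h, nd_self]) (by simp)]
    simp only [nd, G, Pi.add_apply, Pi.single_eq_same, add_sub_cancel_left, v, Pi.sub_apply]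
    refine (sum_le_sum fun x _ => abs_sub _ _).trans ?_
    simp [sum_add_distrib, Pi.single_apply, apply_ite abs]
  have h2 := nd_nonneg (S + v) R
  have e5 : ∀ c', Bal (G c') := by
    intro c'
    by_cases h : c' = c
    · subst h
      intro x y
      have := hF c' x y
      have := hF c' x a
      have := hF c' b y
      have := hF c' b a
      simp only [G, v, Pi.add_apply, Pi.single_eq_same, Pi.sub_apply, Pi.single_apply]
      split_ifs <;> subst_vars <;> omega
    · simpa [G, h] using hF c'
  obtain ⟨F', k1, k2, k3, k4⟩ := ih (n - 2) (by omega) G e5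
    (by simp only [e3, hs]) (by rw [e1]; omega)
  refine ⟨F', k1, fun c => (k2 c).trans (e3 c), k3, ?_⟩
  have := sum_le_sum fun c (_ : c ∈ univ) => nd_tri (F c) (G c) (F' c)
  rw [sum_add_distrib] at this
  rw [e1] at k4
  omega

lemma multi [Nonempty ι] (F : C → ι → ℤ) (hF : ∀ c, Bal (F c)) (R : ι → ℤ) (hR : Bal R)
    (A : C → ℤ) (hA : ∑ c, A c = ∑ a, R a) :
    ∃ F' : C → ι → ℤ, (∀ c, Bal (F' c)) ∧ (∀ c, ∑ a, F' c a = A c) ∧ ∑ c, F' c = R ∧
      ∑ c, nd (F c) (F' c) ≤ nd (∑ c, F c) R + 2 * ∑ c, |A c - ∑ a, F c a| := by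
  choose G g1 g2 g3 using fun c => adjust (F c) (hF c) (A c)
  obtain ⟨F', k1, k2, k3, k4⟩ := swaps R hR (nd (∑ c, G c) R).toNat G g1 (by simp only [g2, hA])
    (Int.self_le_toNat _)
  refine ⟨F', k1, fun c => (k2 c).trans (g2 c), k3, ?_⟩
  have h1 := sum_le_sum fun c (_ : c ∈ univ) => nd_tri (F c) (G c) (F' c)
  have h2 := sum_le_sum fun c (_ : c ∈ univ) => g3 c
  have h3 := nd_tri (∑ c, G c) (∑ c, F c) R
  have h4 : nd (∑ c, G c) (∑ c, F c) ≤ ∑ c, nd (F c) (G c) := by
    simp only [nd, Finset.sum_apply, ← sum_sub_distrib]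
    rw [sum_comm]
    exact sum_le_sum fun a _ => (abs_sum_le_sum_abs _ _).trans
      (sum_le_sum fun c _ => (abs_sub_comm _ _).le)
  rw [sum_add_distrib] at h1
  omega

/-- valid states of a chain -/
def Val (lv : C → ℕ) (R : ι → ℤ) (F : C → ι → ℤ) : Prop :=
  (∀ c, Bal (F c)) ∧ ∀ j, Bal (R - ∑ c, if j ≤ lv c then F c else 0)

theorem chain [Nonempty ι] (lv : C → ℕ) (n : ℕ) : ∀ (R R' : ι → ℤ) (F : C → ι → ℤ) (A : C → ℤ),
    Val lv R F → Bal R' → (∀ c, n ≤ lv c → F c = 0 ∧ A c = 0) →
    ∃ F', Val lv R' F' ∧ (∀ c, ∑ a, F' c a = A c) ∧ ∑ c, 2 ^ lv c * nd (F c) (F' c) ≤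
      (2 ^ n - 1) * (nd R R' + 2 * |∑ a, R' a - ∑ a, R a|) + 6 * ∑ c, 2 ^ lv c * |A c - ∑ a, F c a| := by
  induction n with
  | zero =>
    intro R R' F A _ hR h
    have h1 : ∀ c, F c = 0 := fun c => (h c (Nat.zero_le _)).1
    have h2 : ∀ c, A c = 0 := fun c => (h c (Nat.zero_le _)).2
    refine ⟨F, ⟨fun c => h1 c ▸ bal_zero, fun j => by simpa [h1] using hR⟩, by simp [h1, h2], ?_⟩
    simp [nd_self, h1, h2]
  | succ n ih =>
    intro R R' F A hV hR h
    let G : Option C → ι → ℤ := fun o => o.elim (R - ∑ c, if lv c = n then F c else 0)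
      fun c => if lv c = n then F c else 0
    have e0 : ∀ (F : C → ι → ℤ), (∀ c, n + 1 ≤ lv c → F c = 0) → ∀ j ≤ n,
        (∑ c, if j ≤ lv c then F c else 0) = (∑ c, if lv c = n then F c else 0) +
          ∑ c, if j ≤ lv c then (if lv c = n then 0 else F c) else 0 := by
      intro F _ j hj
      rw [← sum_add_distrib]
      refine sum_congr rfl fun c _ => ?_
      split_ifs <;> first | omega | simp
    have z : ∀ (F : C → ι → ℤ) j, (∀ c, j ≤ lv c → F c = 0) →
        (∑ c, if j ≤ lv c then F c else 0) = 0 := fun F j hF =>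
      sum_eq_zero fun c _ => by split_ifs with h1; exacts [hF c h1, rfl]
    have hz : ∀ c, n ≤ lv c → (if lv c = n then 0 else F c) = 0 := fun c hc => by
      split_ifs with h1; exacts [rfl, (h c (by omega)).1]
    have g0 : Bal (G none) := by
      have := hV.2 n
      rwa [e0 F (fun c hc => (h c hc).1) n le_rfl, z _ n hz, add_zero] at this
    obtain ⟨G', k1, k2, k3, k4⟩ := multi G (by
        rintro (_ | c)
        · exact g0
        · simp only [G, Option.elim]; split_ifs; exacts [hV.1 c, bal_zero]) R' hR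
      (fun o => o.elim (∑ a, R' a - ∑ c, if lv c = n then A c else 0)
        fun c => if lv c = n then A c else 0) (by simp)
    obtain ⟨F', m1, m2, m3⟩ := ih (G none) (G' none) (fun c => if lv c = n then 0 else F c)
      (fun c => if lv c = n then 0 else A c) ⟨fun c => by
        dsimp only; split_ifs; exacts [bal_zero, hV.1 c],
        fun j => by
          rcases le_total j n with hj | hj
          · have := hV.2 j
            rwa [e0 F (fun c hc => (h c hc).1) j hj, ← sub_sub] at this
          · rw [z _ j fun c hc => hz c (hj.trans hc), sub_zero]; exact g0⟩ (k1 none)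
      fun c hc => ⟨hz c hc, by split_ifs with h1; exacts [rfl, (h c (by omega)).2]⟩
    have f0 : ∀ c, n ≤ lv c → F' c = 0 := fun c hc => (m1.1 c).zero (by
      rw [m2]; split_ifs with h1; exacts [rfl, (h c (by omega)).2])
    have g1 : ∀ c, lv c ≠ n → G' (some c) = 0 := fun c hc => (k1 _).zero (by simp [k2, hc])
    have g2 : G' none = R' - ∑ c, if lv c = n then G' (some c) else 0 := by
      have : (∑ c, if lv c = n then G' (some c) else 0) = ∑ c, G' (some c) :=
        sum_congr rfl fun c _ => by split_ifs with h1; exacts [rfl, (g1 c h1).symm]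
      rw [← k3, Fintype.sum_option, this]
      simp
    refine ⟨fun c => if lv c = n then G' (some c) else F' c, ⟨fun c => ?_, fun j => ?_⟩,
      fun c => ?_, ?_⟩
    · dsimp only; split_ifs; exacts [k1 _, m1.1 c]
    · rcases le_or_gt j n with hj | hj
      · have := m1.2 j
        rw [e0 _ (fun c hc => by rw [if_neg (by omega), f0 c (by omega)]) j hj, ← sub_sub]
        rw [g2] at this
        convert this using 4
        · split_ifs <;> rfl
        · split_ifs <;> first | rfl | exact (f0 _ (by omega)).symm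
      · rw [z _ j fun c hc => by rw [if_neg (by omega), f0 c (by omega)], sub_zero]; exact hR
    · have := k2 (some c)
      have := m2 c
      dsimp only
      split_ifs with h1 <;> simp_all
    · have a1 : ∑ c, G c = R := by simp [G]
      set P := ∑ c, if lv c = n then |A c - ∑ a, F c a| else 0 with hP
      have a2 : |∑ a, G' none a - ∑ a, G none a| ≤ |∑ a, R' a - ∑ a, R a| + P := by
        have b1 : ∑ a, G none a = ∑ a, R a - ∑ c, if lv c = n then ∑ a, F c a else 0 := by
          simp only [G, Option.elim, Pi.sub_apply, sum_sub_distrib, Finset.sum_apply]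
          rw [sum_comm]
          congr 1
          exact sum_congr rfl fun c _ => by split_ifs <;> simp
        rw [k2, b1]
        simp only [Option.elim]
        rw [sub_sub_sub_comm, ← sum_sub_distrib (fun c => if lv c = n then A c else 0)]
        refine (abs_sub _ _).trans (add_le_add le_rfl ((abs_sum_le_sum_abs _ _).trans
          (sum_le_sum fun c _ => by split_ifs <;> simp)))
      have a3 : ∑ c, nd (G (some c)) (G' (some c)) + nd (G none) (G' none) ≤
          nd R R' + 2 * (|∑ a, G' none a - ∑ a, G none a| + P) := by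
        rw [a1, Fintype.sum_option, Fintype.sum_option, ← k2 none, add_comm] at k4
        refine k4.trans (le_of_eq ?_)
        congr 3
        refine sum_congr rfl fun c _ => ?_
        simp only [G, Option.elim]
        split_ifs <;> simp
      have a4 : ∑ c, 2 ^ lv c * nd (F c) (if lv c = n then G' (some c) else F' c) =
          2 ^ n * ∑ c, nd (G (some c)) (G' (some c)) +
            ∑ c, 2 ^ lv c * nd (if lv c = n then 0 else F c) (F' c) := by
        rw [mul_sum, ← sum_add_distrib]
        refine sum_congr rfl fun c _ => ?_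
        simp only [G, Option.elim]
        split_ifs with h1
        · rw [f0 c h1.ge, nd_self, h1]; simp
        · rw [g1 c h1, nd_self]; simp
      have a5 : ∑ c, 2 ^ lv c * |A c - ∑ a, F c a| = 2 ^ n * P + ∑ c, 2 ^ lv c *
          |(if lv c = n then 0 else A c) - ∑ a, (if lv c = n then 0 else F c) a| := by
        rw [hP, mul_sum, ← sum_add_distrib]
        refine sum_congr rfl fun c _ => ?_
        split_ifs with h1 <;> simp [h1]
      rw [a4, a5, pow_succ]
      have p : (0 : ℤ) < 2 ^ n := by positivity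
      have p1 := mul_le_mul_of_nonneg_left a3 p.le
      have p2 := mul_le_mul_of_nonneg_left a2 p.le
      have p' : (0 : ℤ) ≤ 2 ^ n - 1 := by omega
      have p3 := mul_nonneg p' (nd_nonneg R R')
      have p4 := nd_nonneg (G none) (G' none)
      have p5 := mul_le_mul_of_nonneg_left a2 p'
      have p6 : 0 ≤ P := sum_nonneg fun c _ => by split_ifs; exacts [abs_nonneg _, le_rfl]
      linarith

end

section
variable {K C G : Type*} [Fintype K] [DecidableEq K] [Fintype C] [DecidableEq C] [DecidableEq G]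

/-- weighted distance between labels -/
def wd (w : C → ℝ) (a b : Option C) : ℝ := if a = b then 0 else a.elim 0 w + b.elim 0 w

/-- number of items with a given label -/
def cnt (f : K → Option C) (c : C) : ℕ := (univ.filter fun i => f i = some c).card

omit [Fintype C] in
lemma ow_nonneg {w : C → ℝ} (hw : ∀ c, 0 ≤ w c) (a : Option C) : 0 ≤ a.elim 0 w := by
  cases a; exacts [le_rfl, hw _]

omit [Fintype C] in
lemma wd_nonneg {w : C → ℝ} (hw : ∀ c, 0 ≤ w c) (a b : Option C) : 0 ≤ wd w a b := by
  have := ow_nonneg hw a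
  have := ow_nonneg hw b
  unfold wd; split_ifs <;> positivity

omit [Fintype C] in
lemma wd_le {w : C → ℝ} (hw : ∀ c, 0 ≤ w c) (a b : Option C) :
    wd w a b ≤ a.elim 0 w + b.elim 0 w := by
  have := ow_nonneg hw a
  have := ow_nonneg hw b
  unfold wd; split_ifs; exacts [by positivity, le_rfl]

omit [Fintype C] in
lemma wd_tri {w : C → ℝ} (hw : ∀ c, 0 ≤ w c) (a b c : Option C) :
    wd w a c ≤ wd w a b + wd w b c := by
  have := ow_nonneg hw a
  have := ow_nonneg hw b
  have := ow_nonneg hw c
  unfold wd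
  split_ifs <;> subst_vars <;> first | linarith | contradiction

lemma cnt_eq (f : K → Option C) (c : C) : (cnt f c : ℝ) = ∑ i, if f i = some c then 1 else 0 := by
  simp [cnt]

lemma cnt_diff {w : C → ℝ} (hw : ∀ c, 0 ≤ w c) (f f' : K → Option C) :
    ∑ c, w c * |(cnt f' c : ℝ) - cnt f c| ≤ ∑ i, wd w (f i) (f' i) := by
  simp only [cnt_eq, ← sum_sub_distrib]
  refine (sum_le_sum fun c _ => mul_le_mul_of_nonneg_left (abs_sum_le_sum_abs _ _) (hw c)).trans ?_
  simp only [mul_sum]
  rw [sum_comm]
  refine sum_le_sum fun i _ => ?_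
  unfold wd
  split_ifs with h
  · simp [h]
  · have : ∀ a : Option C, ∑ c, w c * (if a = some c then 1 else 0) = a.elim 0 w := by
      rintro (_ | a) <;> simp
    rw [← this, ← this, ← sum_add_distrib]
    refine sum_le_sum fun c _ => ?_
    rw [← mul_add]
    refine mul_le_mul_of_nonneg_left ?_ (hw c)
    split_ifs <;> simp

lemma cnt_split (par : C → G) (p : K → Option G) (f : K → Option C)
    (hf : ∀ i c, f i = some c → p i = some (par c)) (g : G) :
    cnt p g = ∑ c, (if par c = g then cnt f c else 0) +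
      (univ.filter fun i => p i = some g ∧ f i = none).card := by
  simp only [cnt, card_filter]
  rw [sum_congr rfl (g := fun c' => ∑ i, if par c' = g ∧ f i = some c' then 1 else 0)
    fun c' _ => by split_ifs with h4 <;> simp [h4], sum_comm, ← sum_add_distrib]
  refine sum_congr rfl fun i _ => ?_
  rcases h : f i with _ | c
  · simp
  · rw [sum_eq_single c (fun c' _ h1 => by simp [h1.symm]) (by simp), hf i c h]
    simp

lemma fill {w : C → ℝ} (hw : ∀ c, 0 ≤ w c) (par : C → G) (p : K → Option G) (n : C → ℕ)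
    (hn : ∀ g, ∑ c, (if par c = g then n c else 0) ≤ cnt p g) (m : ℕ) : ∀ f : K → Option C,
    (∀ i c, f i = some c → p i = some (par c)) → ∑ c, |(cnt f c : ℤ) - n c| ≤ m →
    ∃ f' : K → Option C, (∀ i c, f' i = some c → p i = some (par c)) ∧ (∀ c, cnt f' c = n c) ∧
      ∑ i, wd w (f i) (f' i) ≤ ∑ c, w c * |(cnt f c : ℝ) - n c| := by
  induction m with
  | zero =>
    intro f hf h
    have h0 : ∀ c, cnt f c = n c := fun c => by
      have := (single_le_sum (fun c _ => abs_nonneg _) (mem_univ c)).trans h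
      simpa [sub_eq_zero] using this
    exact ⟨f, hf, h0, by simp [wd, h0]⟩
  | succ m ih =>
    intro f hf h
    have key : ∀ (i : K) (c : C) (o : Option C) (s : ℤ), (∀ c', o = some c' → p i = some (par c')) →
        (∀ c', (cnt (Function.update f i o) c' : ℤ) = cnt f c' + if c' = c then s else 0) →
        |(cnt f c : ℤ) + s - n c| + 1 = |(cnt f c : ℤ) - n c| → wd w (f i) o ≤ w c →
        ∃ f' : K → Option C, (∀ i c, f' i = some c → p i = some (par c)) ∧ (∀ c, cnt f' c = n c) ∧
          ∑ i, wd w (f i) (f' i) ≤ ∑ c, w c * |(cnt f c : ℝ) - n c| := by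
      intro i c o s h1 h2 h3 h4
      have h5 : ∀ c', |(cnt (Function.update f i o) c' : ℤ) - n c'| + (if c' = c then 1 else 0) =
          |(cnt f c' : ℤ) - n c'| := fun c' => by
        rw [h2]; split_ifs with h6
        · rw [h6, h3]
        · simp
      obtain ⟨f', k1, k2, k3⟩ := ih (Function.update f i o) (fun j c' hj => by
        by_cases h6 : j = i
        · subst h6; exact h1 c' (by simpa using hj)
        · exact hf j c' (by simpa [h6] using hj)) (by
          rw [← sum_congr rfl fun c' _ => h5 c', sum_add_distrib] at h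
          simp at h
          omega)
      refine ⟨f', k1, k2, (sum_le_sum fun j _ => wd_tri hw _ (Function.update f i o j) _).trans ?_⟩
      have h7 : ∀ c', |(cnt f c' : ℝ) - n c'| =
          |(cnt (Function.update f i o) c' : ℝ) - n c'| + (if c' = c then 1 else 0) := fun c' => by
        have := congrArg (Int.cast : ℤ → ℝ) (h5 c')
        push_cast at this
        exact this.symm
      rw [sum_add_distrib, sum_eq_single i (fun j _ hj => by simp [wd, hj]) (by simp)]
      simp only [h7, mul_add, sum_add_distrib, Function.update_self]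
      simp
      linarith
    have cu : ∀ i o c', (cnt (Function.update f i o) c' : ℤ) = cnt f c' +
        ((if o = some c' then 1 else 0) - if f i = some c' then 1 else 0) := by
      intro i o c'
      simp only [cnt, card_filter]
      push_cast
      rw [← sum_erase_add _ _ (mem_univ i), ← sum_erase_add _ _ (mem_univ i), Function.update_self,
        sum_congr rfl fun j hj => by rw [Function.update_of_ne (ne_of_mem_erase hj)]]
      ring
    by_cases h1 : ∃ c, n c < cnt f c
    · obtain ⟨c, hc⟩ := h1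
      obtain ⟨i, hi⟩ := card_pos.1 ((Nat.zero_le _).trans_lt hc)
      rw [mem_filter_univ] at hi
      refine key i c none (-1) (by simp) (fun c' => ?_) ?_ (by simp [wd, hi])
      · rw [cu, hi]; simp only [Option.some.injEq, eq_comm (a := c)]; split_ifs <;> simp_all
      · rw [abs_of_nonneg (by omega), abs_of_nonneg (by omega)]; ring
    push Not at h1
    by_cases h2 : ∃ c, cnt f c < n c
    · obtain ⟨c, hc⟩ := h2
      obtain ⟨i, hi1, hi2⟩ : ∃ i, p i = some (par c) ∧ f i = none := by
        by_contra hc'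
        push Not at hc'
        have h3 := cnt_split par p f hf (par c)
        rw [filter_eq_empty_iff.2 fun i _ h => hc' i h.1 h.2, card_empty] at h3
        have h4 : (∑ c', if par c' = par c then cnt f c' else 0) <
            ∑ c', if par c' = par c then n c' else 0 :=
          sum_lt_sum (fun c' _ => by split_ifs; exacts [h1 c', le_rfl])
            ⟨c, mem_univ _, by simpa using hc⟩
        have := hn (par c)
        omega
      refine key i c (some c) 1 (by rintro _ ⟨⟩; exact hi1) (fun c' => ?_) ?_ (by simp [wd, hi2])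
      · rw [cu, hi2]; simp [eq_comm (a := c)]
      · rw [abs_of_nonpos (by omega), abs_of_nonpos (by omega)]; ring
    · push Not at h2
      have h0 : ∀ c, cnt f c = n c := fun c => le_antisymm (h1 c) (h2 c)
      exact ⟨f, hf, h0, by simp [wd, h0]⟩

theorem relabel {w : C → ℝ} (hw : ∀ c, 0 ≤ w c) (par : C → G) (p p' : K → Option G) (n : C → ℕ)
    (hn : ∀ g, ∑ c, (if par c = g then n c else 0) ≤ cnt p' g) (f : K → Option C)
    (hf : ∀ i c, f i = some c → p i = some (par c)) :
    ∃ f' : K → Option C, (∀ i c, f' i = some c → p' i = some (par c)) ∧ (∀ c, cnt f' c = n c) ∧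
      ∑ i, wd w (f i) (f' i) ≤ ∑ c, w c * |(cnt f c : ℝ) - n c| +
        2 * ∑ i, if p i = p' i then 0 else (f i).elim 0 w := by
  let f1 : K → Option C := fun i => if p i = p' i then f i else none
  obtain ⟨f', k1, k2, k3⟩ := fill hw par p' n hn _ f1 (fun i c h => by
    simp only [f1] at h
    split_ifs at h with h1
    exact h1 ▸ hf i c h) (Int.self_le_toNat _)
  refine ⟨f', k1, k2, (sum_le_sum fun j _ => wd_tri hw _ (f1 j) _).trans ?_⟩
  have h1 : ∑ i, wd w (f i) (f1 i) ≤ ∑ i, if p i = p' i then 0 else (f i).elim 0 w := by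
    refine sum_le_sum fun i _ => ?_
    simp only [f1]
    split_ifs
    · simp [wd]
    · simpa using wd_le hw (f i) none
  have h2 := cnt_diff hw f f1
  have h3 : ∑ c, w c * |(cnt f1 c : ℝ) - n c| ≤
      ∑ c, (w c * |(cnt f1 c : ℝ) - cnt f c| + w c * |(cnt f c : ℝ) - n c|) :=
    sum_le_sum fun c _ => by
      rw [← mul_add]; exact mul_le_mul_of_nonneg_left (abs_sub_le _ _ _) (hw c)
  rw [sum_add_distrib] at h3 ⊢
  linarith

end

end Vale.Agent.P304
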