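import Vale.Agent.P304.Defs
import Vale.Agent.P304.Avg

/-! Finite scenario models, posteriors, and lazy tracking of a posterior probability. -/

namespace Vale.Agent.P304

open Finset Real

universe u

/-- a finite distribution over request sequences with a chosen offline service -/
structure Scen (X : Type u) (k : ℕ) where
  Ω : Type u
  fin : Fintype Ω
  q : Ω → ℝ
  hq : ∀ ω, 0 < q ω
  req : Ω → ℕ → X
  ch : Ω → ℕ → Fin k
  x0 : X
  T : ℕ

attribute [instance] Scen.fin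

namespace Scen

variable {X : Type u} {k : ℕ} (S : Scen X k)

/-- history, latest request first -/
def hist (ω : S.Ω) : ℕ → List X
  | 0 => []
  | t + 1 => S.req ω t :: hist ω t

lemma hist_length (ω : S.Ω) (t : ℕ) : (S.hist ω t).length = t := by
  induction t with
  | zero => rfl
  | succ t ih => simp [hist, ih]

/-- positions of the offline servers -/
def pos (ω : S.Ω) (t : ℕ) : Fin k → X := conf (fun _ => S.x0) (S.req ω) (S.ch ω) t

lemma pos_self (ω : S.Ω) (t : ℕ) : S.pos ω (t + 1) (S.ch ω t) = S.req ω t := by simp [pos, conf]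

lemma pos_ne (ω : S.Ω) (t : ℕ) {i : Fin k} (h : i ≠ S.ch ω t) :
    S.pos ω (t + 1) i = S.pos ω t i := by simp [pos, conf, h]

lemma pos_zero (ω : S.Ω) (i : Fin k) : S.pos ω 0 i = S.x0 := rfl

/-- expectation -/
def Ev (f : S.Ω → ℝ) : ℝ := ∑ ω, S.q ω * f ω

/-- expected sum over time -/
def Ex (F : ℕ → S.Ω → ℝ) : ℝ := ∑ t ∈ range S.T, S.Ev (F t)

open Classical in
/-- mass of a history -/
noncomputable def Mm (h : List X) (f : S.Ω → ℝ) : ℝ :=
  ∑ ω, if S.hist ω h.length = h then S.q ω * f ω else 0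

/-- posterior expectation -/
noncomputable def post (h : List X) (f : S.Ω → ℝ) : ℝ := S.Mm h f / S.Mm h 1

/-- realized histories -/
def Re (h : List X) : Prop := ∃ ω t, S.hist ω t = h

variable {S}

lemma Ev_mono {f g : S.Ω → ℝ} (h : ∀ ω, f ω ≤ g ω) : S.Ev f ≤ S.Ev g :=
  sum_le_sum fun ω _ => mul_le_mul_of_nonneg_left (h ω) (S.hq ω).le

lemma Ev_add (f g : S.Ω → ℝ) : S.Ev (fun ω => f ω + g ω) = S.Ev f + S.Ev g := by
  simp [Ev, mul_add, sum_add_distrib]

lemma Ev_sub (f g : S.Ω → ℝ) : S.Ev (fun ω => f ω - g ω) = S.Ev f - S.Ev g := by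
  simp [Ev, mul_sub, sum_sub_distrib]

lemma Ev_mul (c : ℝ) (f : S.Ω → ℝ) : S.Ev (fun ω => c * f ω) = c * S.Ev f := by
  simp [Ev, mul_sum, mul_left_comm]

lemma Ev_sum {ι : Type*} (s : Finset ι) (f : ι → S.Ω → ℝ) :
    S.Ev (fun ω => ∑ i ∈ s, f i ω) = ∑ i ∈ s, S.Ev (f i) := by
  simp only [Ev, mul_sum]; exact sum_comm

lemma Ex_mono {F G : ℕ → S.Ω → ℝ} (h : ∀ t ω, F t ω ≤ G t ω) : S.Ex F ≤ S.Ex G :=
  sum_le_sum fun t _ => Ev_mono (h t)

lemma Ex_add (F G : ℕ → S.Ω → ℝ) : S.Ex (fun t ω => F t ω + G t ω) = S.Ex F + S.Ex G := by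
  simp [Ex, Ev_add, sum_add_distrib]

lemma Ex_mul (c : ℝ) (F : ℕ → S.Ω → ℝ) : S.Ex (fun t ω => c * F t ω) = c * S.Ex F := by
  simp [Ex, Ev_mul, mul_sum]

lemma Ex_sum {ι : Type*} (s : Finset ι) (F : ι → ℕ → S.Ω → ℝ) :
    S.Ex (fun t ω => ∑ i ∈ s, F i t ω) = ∑ i ∈ s, S.Ex (F i) := by
  simp only [Ex, Ev_sum]; exact sum_comm

lemma Ex_nonneg {F : ℕ → S.Ω → ℝ} (h : ∀ t ω, 0 ≤ F t ω) : 0 ≤ S.Ex F :=
  sum_nonneg fun t _ => sum_nonneg fun ω _ => mul_nonneg (S.hq ω).le (h t ω)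

/-- potential method -/
lemma Ex_pot {F G Φ : ℕ → S.Ω → ℝ}
    (h : ∀ t, S.Ev (F t) + S.Ev (Φ (t + 1)) ≤ S.Ev (Φ t) + S.Ev (G t))
    (h0 : ∀ ω, Φ 0 ω ≤ Φ S.T ω) : S.Ex F ≤ S.Ex G := by
  have h1 : ∀ n, ∑ t ∈ range n, S.Ev (F t) + S.Ev (Φ n) ≤
      S.Ev (Φ 0) + ∑ t ∈ range n, S.Ev (G t) := by
    intro n
    induction n with
    | zero => simp
    | succ n ih => rw [sum_range_succ, sum_range_succ]; linarith [h n]
  have := Ev_mono h0
  unfold Ex
  linarith [h1 S.T]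

lemma Ex_pot' {F G Φ : ℕ → S.Ω → ℝ} (h : ∀ t ω, F t ω + Φ (t + 1) ω ≤ Φ t ω + G t ω)
    (h0 : ∀ ω, Φ 0 ω ≤ Φ S.T ω) : S.Ex F ≤ S.Ex G :=
  Ex_pot (fun t => by rw [← Ev_add, ← Ev_add]; exact Ev_mono (h t)) h0

lemma Mm_mono {h : List X} {f g : S.Ω → ℝ} (H : ∀ ω, S.hist ω h.length = h → f ω ≤ g ω) :
    S.Mm h f ≤ S.Mm h g := by
  refine sum_le_sum fun ω _ => ?_
  split_ifs with h1
  exacts [mul_le_mul_of_nonneg_left (H ω h1) (S.hq ω).le, le_rfl]

lemma Mm_mul (h : List X) (c : ℝ) (f : S.Ω → ℝ) : S.Mm h (fun ω => c * f ω) = c * S.Mm h f := by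
  simp [Mm, mul_sum, mul_left_comm]

lemma Mm_add (h : List X) (f g : S.Ω → ℝ) :
    S.Mm h (fun ω => f ω + g ω) = S.Mm h f + S.Mm h g := by
  simp only [Mm, ← sum_add_distrib]
  exact sum_congr rfl fun ω _ => by split_ifs <;> ring

lemma Mm_sum {ι : Type*} (h : List X) (s : Finset ι) (f : ι → S.Ω → ℝ) :
    S.Mm h (fun ω => ∑ i ∈ s, f i ω) = ∑ i ∈ s, S.Mm h (f i) := by
  simp only [Mm]
  rw [sum_comm]
  exact sum_congr rfl fun ω _ => by split_ifs <;> simp [mul_sum]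

lemma Re.Mm_pos {h : List X} (H : S.Re h) : 0 < S.Mm h 1 := by
  obtain ⟨ω, t, rfl⟩ := H
  refine sum_pos' (fun ω _ => ?_) ⟨ω, mem_univ _, by simpa [hist_length] using S.hq ω⟩
  split_ifs
  exacts [by simpa using (S.hq ω).le, le_rfl]

lemma re_hist (ω : S.Ω) (t : ℕ) : S.Re (S.hist ω t) := ⟨ω, t, rfl⟩

lemma Re.tail {r : X} {h : List X} (H : S.Re (r :: h)) : S.Re h := by
  obtain ⟨ω, t, H⟩ := H
  cases t with
  | zero => simp [hist] at H
  | succ t => exact ⟨ω, t, (List.cons.inj H).2⟩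

lemma post_mono {h : List X} (H : S.Re h) {f g : S.Ω → ℝ}
    (hf : ∀ ω, S.hist ω h.length = h → f ω ≤ g ω) : S.post h f ≤ S.post h g :=
  div_le_div_of_nonneg_right (Mm_mono hf) H.Mm_pos.le

lemma post_const {h : List X} (H : S.Re h) (c : ℝ) : S.post h (fun _ => c) = c := by
  have := Mm_mul (S := S) h c 1
  simp only [Pi.one_apply, mul_one] at this
  rw [post, this, mul_div_assoc, div_self H.Mm_pos.ne', mul_one]

lemma post_mul (h : List X) (c : ℝ) (f : S.Ω → ℝ) :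
    S.post h (fun ω => c * f ω) = c * S.post h f := by rw [post, Mm_mul, mul_div_assoc, post]

lemma post_add (h : List X) (f g : S.Ω → ℝ) :
    S.post h (fun ω => f ω + g ω) = S.post h f + S.post h g := by
  rw [post, Mm_add, add_div, post, post]

lemma post_sum {ι : Type*} (h : List X) (s : Finset ι) (f : ι → S.Ω → ℝ) :
    S.post h (fun ω => ∑ i ∈ s, f i ω) = ∑ i ∈ s, S.post h (f i) := by
  simp only [post, Mm_sum, sum_div]

lemma Ev_fib (t : ℕ) (F : List X → S.Ω → ℝ) :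
    S.Ev (fun ω => F (S.hist ω t) ω) = S.Ev fun ω => S.post (S.hist ω t) (F (S.hist ω t)) := by
  classical
  have key : ∀ F : List X → S.Ω → ℝ, S.Ev (fun ω => F (S.hist ω t) ω) =
      ∑ h ∈ univ.image fun ω => S.hist ω t, S.Mm h (F h) := by
    intro F
    rw [Ev, ← sum_fiberwise_of_maps_to (fun ω _ => mem_image_of_mem (fun ω => S.hist ω t)
      (mem_univ ω))]
    refine sum_congr rfl fun h hh => ?_
    obtain ⟨ω, -, rfl⟩ := mem_image.1 hh
    rw [Mm, sum_filter, hist_length]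
    refine sum_congr rfl fun ω' _ => ?_
    split_ifs with h1
    exacts [by rw [h1], rfl]
  rw [key, key fun h _ => S.post h (F h)]
  refine sum_congr rfl fun h hh => ?_
  obtain ⟨ω, -, rfl⟩ := mem_image.1 hh
  have := Mm_mul (S := S) (S.hist ω t) (S.post (S.hist ω t) (F (S.hist ω t))) 1
  simp only [Pi.one_apply, mul_one] at this
  rw [this, post, div_mul_cancel₀ _ (re_hist ω t).Mm_pos.ne']

lemma adapted {σ : Type*} (Inv : List X → σ → Prop) (Step : List X → σ → σ → Prop) (s0 : σ)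
    (h0 : Inv [] s0) (hs : ∀ r h s, S.Re (r :: h) → Inv h s →
      ∃ s', Inv (r :: h) s' ∧ Step (r :: h) s s') :
    ∃ F : List X → σ, F [] = s0 ∧ (∀ h, S.Re h → Inv h (F h)) ∧
      ∀ r h, S.Re (r :: h) → Step (r :: h) (F h) (F (r :: h)) := by
  classical
  choose! nx h1 h2 using hs
  haveI : Nonempty σ := ⟨s0⟩
  let F : List X → σ := fun h => h.rec s0 fun r h s => nx r h s
  have h3 : ∀ h, S.Re h → Inv h (F h) := by
    intro h
    induction h with
    | nil => exact fun _ => h0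
    | cons r h ih => exact fun H => h1 r h _ H (ih H.tail)
  exact ⟨F, rfl, h3, fun r h H => h2 r h _ H (h3 h H.tail)⟩

end Scen

open Classical in
/-- lazily updated reference value -/
noncomputable def lazy {X : Type*} (δ η : ℝ) (Z : List X → ℝ) : List X → ℝ
  | [] => Z []
  | r :: h => if |Z (r :: h) - lazy δ η Z h| ≤ δ * (lazy δ η Z h + η) then lazy δ η Z h
      else Z (r :: h)

lemma bregman {y z η δ : ℝ} (hy : 0 ≤ y) (hz : 0 ≤ z) (hη : 0 < η) (hδ1 : δ ≤ 1)
    (h : δ * (y + η) ≤ |z - y|) :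
    δ / 6 * |z - y| ≤ (z + η) * log ((z + η) / (y + η)) - (z - y) := by
  set a := √(z + η) with ha
  set b := √(y + η) with hb
  have ha0 : 0 < a := sqrt_pos.2 (by linarith)
  have hb0 : 0 < b := sqrt_pos.2 (by linarith)
  have e1 : z + η = a ^ 2 := (sq_sqrt (by linarith)).symm
  have e2 : y + η = b ^ 2 := (sq_sqrt (by linarith)).symm
  have e3 : z - y = a ^ 2 - b ^ 2 := by linarith
  rw [e2, e3] at h
  rw [e1, e2, e3]
  have h1 : 1 - b / a ≤ log (a / b) := by
    have := one_sub_inv_le_log_of_pos (div_pos ha0 hb0)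
    rwa [inv_div] at this
  rw [← div_pow, log_pow]
  have h2 : a ^ 2 * (1 - b / a) = a ^ 2 - a * b := by field_simp
  have h3 : (a - b) ^ 2 ≤ a ^ 2 * ((2 : ℕ) * log (a / b)) - (a ^ 2 - b ^ 2) := by
    push_cast
    nlinarith [mul_le_mul_of_nonneg_left h1 (sq_nonneg a)]
  refine le_trans ?_ h3
  have h4 : |a ^ 2 - b ^ 2| = |a - b| * (a + b) := by
    rw [← abs_of_pos (add_pos ha0 hb0), ← abs_mul]; congr 1; ring
  have h5 : δ * (a + b) ≤ 6 * |a - b| := by
    rw [h4] at h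
    rcases le_total a (3 / 2 * b) with h6 | h6
    · have : δ * (a + b) ^ 2 ≤ 6 * |a - b| * (a + b) ∨ δ ≤ 0 := by
        rcases le_total δ 0 with h7 | h7
        · exact Or.inr h7
        · by_cases h8 : a ≤ 1.4 * b
          · left; nlinarith [mul_le_mul_of_nonneg_left (show (a + b) ^ 2 ≤ 6 * b ^ 2 by nlinarith) h7]
          · left
            have := le_abs_self (a - b)
            nlinarith [mul_le_mul_of_nonneg_right hδ1 (sq_nonneg (a + b))]
      rcases this with h7 | h7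
      · exact le_of_mul_le_mul_right (by nlinarith) (add_pos ha0 hb0)
      · nlinarith [abs_nonneg (a - b)]
    · have := le_abs_self (a - b)
      nlinarith
  rw [h4, ← sq_abs (a - b)]
  nlinarith [abs_nonneg (a - b)]

section
variable {X : Type u} {δ η : ℝ} (Z : List X → ℝ)

lemma lazy_close (hδ : 0 ≤ δ) (hη : 0 ≤ η) (h : List X) (hZ : 0 ≤ Z h) :
    |Z h - lazy δ η Z h| ≤ δ * (lazy δ η Z h + η) := by
  cases h with
  | nil => simp only [lazy, sub_self, abs_zero]; positivity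
  | cons r h =>
    simp only [lazy]
    split_ifs with h1
    · exact h1
    · simp only [sub_self, abs_zero]; positivity

variable {k : ℕ} {S : Scen X k}

lemma lazy_mem (hZ : ∀ h, S.Re h → Z h ∈ Set.Icc (0 : ℝ) 1) :
    ∀ h, S.Re h → lazy δ η Z h ∈ Set.Icc (0 : ℝ) 1
  | [], H => hZ _ H
  | r :: h, H => by
    simp only [lazy]
    split_ifs
    exacts [lazy_mem hZ h H.tail, hZ _ H]

theorem track (I : List X → S.Ω → ℝ) (hI : ∀ h ω, I h ω ∈ Set.Icc (0 : ℝ) 1)
    (h0 : ∀ ω, I [] ω = 1) (hδ : 0 < δ) (hδ1 : δ ≤ 1) (hη : 0 < η) :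
    S.Ex (fun t ω => |lazy δ η (fun h => S.post h (I h)) (S.hist ω (t + 1)) -
        lazy δ η (fun h => S.post h (I h)) (S.hist ω t)|) ≤
      6 / δ * log (1 + 1 / η) * S.Ex fun t ω => |I (S.hist ω (t + 1)) ω - I (S.hist ω t) ω| := by
  set Z := fun h => S.post h (I h) with hZd
  set y := lazy δ η Z with hy
  have hZ : ∀ h, S.Re h → Z h ∈ Set.Icc (0 : ℝ) 1 := fun h H =>
    ⟨(Scen.post_const H 0).symm.trans_le (Scen.post_mono H fun ω _ => (hI h ω).1),
      (Scen.post_mono H fun ω _ => (hI h ω).2).trans (Scen.post_const H 1).le⟩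
  have hy1 := lazy_mem (δ := δ) (η := η) Z hZ
  let ψ : List X → ℝ := fun h => log ((y h + η) / η)
  have hψ : ∀ h, S.Re h → 0 ≤ ψ h ∧ ψ h ≤ log (1 + 1 / η) := fun h H => by
    have := hy1 h H
    refine ⟨log_nonneg (by rw [le_div_iff₀ hη]; linarith [this.1]),
      log_le_log (div_pos (by linarith [this.1]) hη) ?_⟩
    rw [div_le_iff₀ hη, add_mul, one_div_mul_cancel hη.ne']; linarith [this.2]
  rw [mul_assoc, div_mul_eq_mul_div, le_div_iff₀ hδ, ← div_le_iff₀' (by norm_num : (0 : ℝ) < 6),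
    mul_div_assoc, mul_comm, ← Scen.Ex_mul, ← Scen.Ex_mul]
  refine Scen.Ex_pot (Φ := fun t ω => y (S.hist ω t) - ψ (S.hist ω t) * (Z (S.hist ω t) + η))
    (fun t => ?_) fun ω => ?_
  · have e1 := S.Ev_fib (t + 1) fun h ω => ψ h.tail * I h ω
    have e2 := S.Ev_fib t fun h ω => ψ h * I h ω
    simp only [Scen.post_mul] at e1 e2
    have e3 : S.Ev (fun ω => ψ (S.hist ω t) * I (S.hist ω t) ω) ≤
        S.Ev (fun ω => ψ (S.hist ω (t + 1)).tail * I (S.hist ω (t + 1)) ω) + S.Ev fun ω =>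
          log (1 + 1 / η) * |I (S.hist ω (t + 1)) ω - I (S.hist ω t) ω| := by
      rw [← Scen.Ev_add]
      refine Scen.Ev_mono fun ω => ?_
      have := hψ _ (Scen.re_hist ω t)
      have h1 := neg_abs_le (I (S.hist ω (t + 1)) ω - I (S.hist ω t) ω)
      have h2 := abs_nonneg (I (S.hist ω (t + 1)) ω - I (S.hist ω t) ω)
      change _ ≤ ψ (S.hist ω t) * _ + _
      nlinarith
    have e4 : S.Ev (fun ω => δ / 6 * |y (S.hist ω (t + 1)) - y (S.hist ω t)|) +
        S.Ev (fun ω => y (S.hist ω (t + 1)) - ψ (S.hist ω (t + 1)) * (Z (S.hist ω (t + 1)) + η)) +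
        S.Ev (fun ω => ψ (S.hist ω (t + 1)).tail * Z (S.hist ω (t + 1))) ≤
        S.Ev (fun ω => y (S.hist ω t) - ψ (S.hist ω t) * (Z (S.hist ω t) + η)) +
        S.Ev (fun ω => ψ (S.hist ω t) * Z (S.hist ω t)) := by
      simp only [← Scen.Ev_add]
      refine Scen.Ev_mono fun ω => ?_
      have a1 := (hy1 _ (Scen.re_hist ω t)).1
      have a2 := (hZ _ (Scen.re_hist ω (t + 1))).1
      change _ + _ + ψ (S.hist ω t) * _ ≤ _
      simp only [ψ, Scen.hist] at a2 ⊢
      by_cases h1 : |Z (S.req ω t :: S.hist ω t) - y (S.hist ω t)| ≤ δ * (y (S.hist ω t) + η)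
      · rw [show y (S.req ω t :: S.hist ω t) = y (S.hist ω t) from if_pos h1]
        simp only [sub_self, abs_zero]
        linarith
      · rw [show y (S.req ω t :: S.hist ω t) = Z (S.req ω t :: S.hist ω t) from if_neg h1]
        have := bregman a1 a2 hη hδ1 (not_le.1 h1).le
        rw [log_div (by linarith) (by linarith)] at this
        rw [log_div (by linarith) hη.ne', log_div (by linarith) hη.ne']
        linarith
    change S.Ev (fun ω => ψ (S.hist ω (t + 1)).tail * I (S.hist ω (t + 1)) ω) =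
      S.Ev (fun ω => ψ (S.hist ω (t + 1)).tail * Z (S.hist ω (t + 1))) at e1
    change _ = S.Ev (fun ω => ψ (S.hist ω t) * Z (S.hist ω t)) at e2
    linarith
  · have a0 : Z [] = 1 := by
      simp only [hZd, show I [] = fun _ => 1 from funext h0]
      exact Scen.post_const (Scen.re_hist ω 0) 1
    have a1 := hy1 _ (Scen.re_hist ω S.T)
    have a2 := (hZ _ (Scen.re_hist ω S.T)).2
    have a3 := (hψ _ (Scen.re_hist ω S.T)).1
    have a4 := one_sub_inv_le_log_of_pos (div_pos (show 0 < 1 + η by linarith)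
      (show 0 < y (S.hist ω S.T) + η by linarith [a1.1]))
    rw [inv_div, log_div (by linarith) (by linarith [a1.1])] at a4
    have a5 := mul_le_mul_of_nonneg_left a4 (show 0 ≤ 1 + η by linarith)
    rw [mul_sub, mul_div_cancel₀ _ (by linarith)] at a5
    have a6 : y [] = 1 := a0
    simp only [ψ, Scen.hist, a0, a6] at a3 ⊢
    rw [log_div (by linarith [a1.1]) hη.ne'] at a3
    rw [log_div (by linarith) hη.ne', log_div (by linarith [a1.1]) hη.ne']
    nlinarith

end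

end Vale.Agent.P304
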